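import Vale.Agent.P277Z.Oka.Sk

/-!
# P277, block OKA: prime ideals of a polynomial ring which contain a monic polynomial
-/

open Polynomial

noncomputable section

namespace Vale.Agent.P277Z.Oka

namespace AlgH

variable {A : Type} [CommRing A]

/-- pseudo-division -/
theorem pdiv (g : A[X]) (hg : 0 < g.natDegree) (n : ℕ) : ∀ f : A[X], f.natDegree = n →
    ∃ (N : ℕ) (s : A[X]), (C g.leadingCoeff ^ N * f - s * g).natDegree < g.natDegree := by
  induction n using Nat.strong_induction_on with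
  | _ n ih =>
    intro f hf
    rcases lt_or_ge f.natDegree g.natDegree with h | h
    · exact ⟨0, 0, by simpa using h⟩
    · have h1 := natDegree_cancelLeads_lt_of_natDegree_le_natDegree h (lt_of_lt_of_le hg h)
      obtain ⟨N, s, hs⟩ := ih _ (hf ▸ h1) _ rfl
      refine ⟨N + 1, C g.leadingCoeff ^ N * (C f.leadingCoeff * X ^ (f.natDegree - g.natDegree))
        + s, ?_⟩
      have h2 : C g.leadingCoeff ^ (N + 1) * f - (C g.leadingCoeff ^ N *
          (C f.leadingCoeff * X ^ (f.natDegree - g.natDegree)) + s) * g =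
          C g.leadingCoeff ^ N * g.cancelLeads f - s * g := by
        rw [cancelLeads, Nat.sub_eq_zero_of_le h]
        ring
      rw [h2]
      exact hs

/-- the norm argument -/
theorem nrm (q : Ideal A[X]) (hq : q.IsPrime) (P : A[X]) (hP : P ∈ q) (hm : P.Monic) (f : A[X])
    (hf : f ∉ q) : ∃ (r : A) (s : A[X]), C r ∉ q ∧ C r - s * f ∈ q := by
  have hae : ∀ u : A[X], aeval (Ideal.Quotient.mk q X) u = Ideal.Quotient.mk q u := fun u => by
    have h := aeval_algHom_apply (Ideal.Quotient.mkₐ A q) X u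
    rw [aeval_X_left_apply] at h
    exact h
  have hX : IsIntegral A (Ideal.Quotient.mk q X) :=
    ⟨P, hm, by rw [← aeval_def, hae, Ideal.Quotient.eq_zero_iff_mem]; exact hP⟩
  have hI : IsIntegral A (Ideal.Quotient.mk q f) := by
    rw [← hae]
    exact adjoin_le_integralClosure hX (aeval_mem_adjoin_singleton A _)
  obtain ⟨p, hp, hpf⟩ := hI
  have hf0 : Ideal.Quotient.mk q f ≠ 0 := fun h => hf (Ideal.Quotient.eq_zero_iff_mem.1 h)
  obtain ⟨i, hi, hi'⟩ := Ideal.exists_coeff_ne_zero_mem_comap_of_non_zero_divisor_root_mem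
    (f := RingHom.id (A[X] ⧸ q)) (I := Ideal.span {Ideal.Quotient.mk q f})
    (r := Ideal.Quotient.mk q f) (fun hx => (mul_eq_zero.1 hx).resolve_right hf0)
    (Ideal.mem_span_singleton_self _) (p := p.map (algebraMap A (A[X] ⧸ q)))
    (hp.map _).ne_zero (by rw [eval₂_map, RingHom.id_comp]; exact hpf)
  rw [coeff_map] at hi hi'
  have hC : algebraMap A (A[X] ⧸ q) (p.coeff i) = Ideal.Quotient.mk q (C (p.coeff i)) := rfl
  rw [hC] at hi hi'
  rw [Ideal.mem_comap, RingHom.id_apply, Ideal.mem_span_singleton'] at hi'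
  obtain ⟨s, hs⟩ := hi'
  obtain ⟨s, rfl⟩ := Ideal.Quotient.mk_surjective s
  refine ⟨p.coeff i, s, fun h => hi (Ideal.Quotient.eq_zero_iff_mem.2 h), ?_⟩
  rw [← Ideal.Quotient.eq_zero_iff_mem, map_sub, map_mul, hs, sub_self]

end AlgH

theorem alg : Alg := by
  intro A _ _ q hq P hP hm
  classical
  have h1 : (1 : A[X]) ∉ q := (Ideal.ne_top_iff_one q).1 hq.ne_top
  have hex : ∃ n, ∃ g ∈ q, (¬ ∀ i, C (g.coeff i) ∈ q) ∧ g.natDegree = n := by
    refine ⟨_, P, hP, fun h => h1 ?_, rfl⟩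
    have h2 := h P.natDegree
    rwa [hm.coeff_natDegree, C_1] at h2
  obtain ⟨g, hg, hb, hn⟩ := Nat.find_spec hex
  have hmin : ∀ f ∈ q, f.natDegree < g.natDegree → ∀ i, C (f.coeff i) ∈ q := fun f hf hlt => by
    by_contra hc
    exact Nat.find_min hex (hn ▸ hlt) ⟨f, hf, hc, rfl⟩
  have hlc : C g.leadingCoeff ∉ q := fun hc => hb fun i => by
    have he : g.eraseLead ∈ q := by
      rw [← self_sub_C_mul_X_pow]
      exact q.sub_mem hg (q.mul_mem_right _ hc)
    have hb' : ∀ i, C (g.eraseLead.coeff i) ∈ q := by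
      rcases g.eraseLead_natDegree_lt_or_eraseLead_eq_zero with h | h
      · exact hmin _ he h
      · intro i
        rw [h, coeff_zero, C_0]
        exact q.zero_mem
    by_cases hi : i = g.natDegree
    · rw [hi]
      exact hc
    · rw [← eraseLead_coeff_of_ne i hi]
      exact hb' i
  have hd : 0 < g.natDegree := by
    refine Nat.pos_of_ne_zero fun h => hlc ?_
    rw [leadingCoeff, h, ← eq_C_of_natDegree_eq_zero h]
    exact hg
  refine ⟨g, hg, hd, hlc, fun hc => ?_, fun f hf => ?_, AlgH.nrm q hq P hP hm⟩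
  · have h2 := hmin _ hc (natDegree_derivative_lt hd.ne') (g.natDegree - 1)
    rw [coeff_derivative, Nat.sub_add_cancel hd, C_mul] at h2
    rcases hq.mem_or_mem h2 with h | h
    · exact hlc h
    · have h3 : ((g.natDegree - 1 : ℕ) : ℂ) + 1 ≠ 0 := Nat.cast_add_one_ne_zero _
      have h4 : IsUnit (((g.natDegree - 1 : ℕ) : A) + 1) := by
        simpa using (IsUnit.mk0 _ h3).map (algebraMap ℂ A)
      exact hq.ne_top (Ideal.eq_top_of_isUnit_mem q h (h4.map C))
  · obtain ⟨N, s, hs⟩ := AlgH.pdiv g hd _ f rfl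
    exact ⟨N, s, hmin _ (q.sub_mem (q.mul_mem_left _ hf) (q.mul_mem_left _ hg)) hs⟩

end Vale.Agent.P277Z.Oka
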