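import Vale.Agent.P277Z.Oka.Sk

/-!
# P277, block OKA: the zero theorem and the coherence of the ideal of an analytic set
-/

open Filter Topology
open Vale.Agent.P298.H941

noncomputable section

namespace Vale.Agent.P277Z.Oka

variable {E : Type} [NormedAddCommGroup E] [NormedSpace ℂ E]

namespace CarAux

variable {ι κ : Type} [Fintype ι] [Fintype κ] {x : E}

theorem sub_zs {h : ι → E → ℂ} {g : κ → E → ℂ} (hh : ∀ i, AnalyticAt ℂ (h i) x)
    (hg : ∀ i, AnalyticAt ℂ (g i) x) (hle : idl x h ≤ idl x g) :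
    ∀ᶠ y in 𝓝 x, y ∈ Zs g → y ∈ Zs h := by
  have h1 : ∀ i, Van x (Zs g) (h i) := fun i =>
    ((in_iff hg (hh i)).2 (hle (Ideal.subset_span ⟨i, rfl⟩))).van
  filter_upwards [eventually_all.2 h1] with y hy hz i using hy i hz

omit [NormedSpace ℂ E] in
theorem van_mono {A B : Set E} {f : E → ℂ} (hv : Van x A f) (h : ∀ᶠ y in 𝓝 x, y ∈ B → y ∈ A) :
    Van x B f := by
  filter_upwards [hv, h] with y h1 h2 h3 using h1 (h2 h3)

theorem in_mul {h : ι → E → ℂ} {s : κ → E → ℂ} {a f : E → ℂ} (ha : In x s a)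
    (hs : ∀ l, In x h fun y => s l y * f y) : In x h fun y => a y * f y := by
  obtain ⟨c, hc, e⟩ := ha
  refine (In.sum Finset.univ fun l _ => (hs l).mul (hc l)).congr ?_
  filter_upwards [e] with y hy
  rw [hy, Finset.sum_mul]
  exact Finset.sum_congr rfl fun l _ => (mul_assoc _ _ _).symm

theorem cancel_pow {h : ι → E → ℂ} {δ f : E → ℂ} (hδ : AnalyticAt ℂ δ x) (hf : AnalyticAt ℂ f x)
    (hc : ∀ a, AnalyticAt ℂ a x → In x h (fun y => a y * δ y) → In x h a) (N : ℕ)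
    (hN : In x h fun y => δ y ^ N * f y) : In x h f := by
  induction N with
  | zero => exact hN.congr (.of_forall fun y => by simp)
  | succ N ih =>
    exact ih (hc _ ((hδ.fun_pow N).fun_mul hf) (hN.congr (.of_forall fun y => by ring)))

end CarAux

open CarAux

theorem nul (hN : IsNoetherianRing (O E)) (h : NulP E) : Nul E := by
  intro ι _ x g hg f hf hv
  have key : gm x f ∈ (idl x g).radical := by
    rw [Ideal.radical_eq_sInf, Submodule.mem_sInf]
    rintro P ⟨hle, hP⟩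
    obtain ⟨m, k, hk, rfl⟩ := exists_idl x (IsNoetherian.noetherian P)
    exact (in_iff hk hf).1 (h _ x k ((pr_iff hk).2 hP) f hf (van_mono hv (sub_zs hg hk hle)))
  obtain ⟨N, hN⟩ := key
  exact ⟨N, (in_iff hg (hf.fun_pow N)).2 (by rwa [gm_pow hf])⟩

theorem carP (hG : GenP E) (hC : Col E) (hN : Nul E) : CarP E := by
  intro ι _ x₀ h hp
  obtain ⟨δ, hδ, hδn, hgen⟩ := hG ι x₀ h hp
  obtain ⟨m, r, hr, hr1, hr2⟩ := hC ι x₀ h δ hp.ana hδ
  have hr3 : ∀ l, ∀ᶠ x in 𝓝 x₀, In x h (r l) := fun l =>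
    ((hp.mul _ _ (hr l) hδ (hr1 l)).resolve_right hδn).eventually
  filter_upwards [hgen.eventually_nhds, hr2, eventually_all.2 hr3, hδ.eventually_analyticAt,
    eventually_all.2 fun i => (hp.ana i).eventually_analyticAt] with x h1 h2 h3 h4 h5 f hf hv
  obtain ⟨m', s, hs, hs1, hs2⟩ := hC ι x h f h5 hf
  have hv' : Van x (Zs s) δ := by
    filter_upwards [h1, hs2, hf.eventually_analyticAt, hv.eventually] with y k1 k2 k3 k4 k5
    by_contra k6
    have k7 := k2 (fun _ => 1) analyticAt_const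
      ((k1 k6 f k3 k4).congr (.of_forall fun z => (one_mul _).symm))
    exact one_ne_zero (k7.van.self_of_nhds k5)
  obtain ⟨N, hN'⟩ := hN _ x s hs δ h4 hv'
  exact cancel_pow h4 hf (fun a ha k => (h2 a ha k).trans h3) N (in_mul hN' hs1)

theorem car (hN : IsNoetherianRing (O E)) (hP : CarP E) (hC : Cap E) : Car E := by
  intro ι _ x₀ h hh
  have hfin : Finite (idl x₀ h).minimalPrimes :=
    (Ideal.finite_minimalPrimes_of_isNoetherianRing _ (idl x₀ h)).to_subtype
  choose m g hg e using fun P : (idl x₀ h).minimalPrimes =>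
    exists_idl x₀ (IsNoetherian.noetherian P.1)
  obtain ⟨n, r, hr, hr1, hr2⟩ := hC (idl x₀ h).minimalPrimes (fun P => Fin (m P)) x₀ g hg
  refine ⟨n, r, hr, fun l => ?_, ?_⟩
  · have key : gm x₀ (r l) ∈ (idl x₀ h).radical := by
      rw [← Ideal.sInf_minimalPrimes, Submodule.mem_sInf]
      intro P hP
      have := (in_iff (hg ⟨P, hP⟩) (hr l)).1 (hr1 l ⟨P, hP⟩)
      rwa [e] at this
    obtain ⟨N, hN⟩ := key
    have h1 := ((in_iff hh ((hr l).fun_pow N)).2 (by rwa [gm_pow (hr l)])).van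
    filter_upwards [h1] with y hy hz using pow_eq_zero_iff' .. |>.1 (hy hz) |>.1
  · have h1 : ∀ P, ∀ᶠ x in 𝓝 x₀, ∀ f, AnalyticAt ℂ f x → Van x (Zs (g P)) f → In x (g P) f :=
      fun P => hP _ x₀ (g P) ((pr_iff (hg P)).2 (e P ▸ P.2.1.1))
    have h2 : ∀ P, ∀ᶠ x in 𝓝 x₀, ∀ᶠ y in 𝓝 x, y ∈ Zs (g P) → y ∈ Zs h := fun P =>
      (sub_zs hh (hg P) (e P ▸ P.2.1.2)).eventually_nhds
    filter_upwards [hr2, eventually_all.2 h1, eventually_all.2 h2] with x k1 k2 k3 f hf hv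
    exact k1 f hf fun P => k2 P f hf (van_mono hv (k3 P))

end Vale.Agent.P277Z.Oka
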