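import Vale.Agent.P277Z.Oka.Sk

/-!
# P277, block OKA: quotients and finite intersections of ideals are locally finitely generated
-/

open Filter Topology

noncomputable section

namespace Vale.Agent.P277Z.Oka

variable {E : Type} [NormedAddCommGroup E] [NormedSpace ℂ E]

theorem col (H : OkaS E) : Col E := by
  intro ι _ x₀ h f hh hf
  obtain ⟨m, r, hr, hrel, hgen⟩ := H (Option ι) x₀ (fun o => o.elim f h) (by
    rintro (_ | i)
    exacts [hf, hh i])
  refine ⟨m, fun l => r l none, fun l => hr l none, fun l => ?_, ?_⟩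
  · refine ⟨fun i y => -r l (some i) y, fun i => (hr l _).fun_neg, ?_⟩
    filter_upwards [hrel l ()] with y hy
    simp only [Fintype.sum_option, Option.elim] at hy
    simp only [neg_mul, Finset.sum_neg_distrib]
    exact eq_neg_of_add_eq_zero_left hy
  · filter_upwards [hgen] with x hx a ha ⟨c, hc, e⟩
    obtain ⟨d, hd, e'⟩ := hx (fun o => o.elim a fun i y => -c i y) (by
      rintro (_ | i)
      exacts [ha, (hc i).fun_neg]) (fun _ => by
      filter_upwards [e] with y hy
      simp only [Fintype.sum_option, Option.elim, neg_mul, Finset.sum_neg_distrib, hy,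
        add_neg_cancel])
    exact ⟨d, hd, e' none⟩

namespace ColAux

theorem cap2 (H : OkaS E) {ι κ : Type} [Fintype ι] [Fintype κ] (x₀ : E) (h : ι → E → ℂ)
    (h' : κ → E → ℂ) (hh : ∀ i, AnalyticAt ℂ (h i) x₀) (hh' : ∀ j, AnalyticAt ℂ (h' j) x₀) :
    ∃ (m : ℕ) (r : Fin m → E → ℂ), (∀ l, AnalyticAt ℂ (r l) x₀) ∧ (∀ l, In x₀ h (r l)) ∧
      (∀ l, In x₀ h' (r l)) ∧
      ∀ᶠ x in 𝓝 x₀, ∀ f, In x h f → In x h' f → In x r f := by
  obtain ⟨m, r, hr, hrel, hgen⟩ := H (ι ⊕ κ) x₀ (Sum.elim h h') (by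
    rintro (i | j)
    exacts [hh i, hh' j])
  have h1 : ∀ l, In x₀ h fun y => ∑ i, r l (.inl i) y * h i y :=
    fun l => ⟨fun i => r l (.inl i), fun i => hr l _, .of_forall fun _ => rfl⟩
  refine ⟨m, fun l y => ∑ i, r l (.inl i) y * h i y, fun l => (h1 l).ana hh, h1, fun l => ?_, ?_⟩
  · refine ⟨fun j y => -r l (.inr j) y, fun j => (hr l _).fun_neg, ?_⟩
    filter_upwards [hrel l ()] with y hy
    simp only [Fintype.sum_sum_type, Sum.elim_inl, Sum.elim_inr] at hy
    simp only [neg_mul, Finset.sum_neg_distrib]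
    exact eq_neg_of_add_eq_zero_left hy
  · filter_upwards [hgen] with x hx f ⟨c, hc, e⟩ ⟨c', hc', e'⟩
    obtain ⟨d, hd, e''⟩ := hx (Sum.elim c fun j y => -c' j y) (by
      rintro (i | j)
      exacts [hc i, (hc' j).fun_neg]) (fun _ => by
      filter_upwards [e, e'] with y hy hy'
      simp only [Fintype.sum_sum_type, Sum.elim_inl, Sum.elim_inr, neg_mul,
        Finset.sum_neg_distrib, ← hy, ← hy', add_neg_cancel])
    refine ⟨d, hd, ?_⟩
    filter_upwards [e, eventually_all.2 fun i => e'' (.inl i)] with y hy hy'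
    simp only [Sum.elim_inl] at hy'
    simp only [hy, hy', Finset.sum_mul, Finset.mul_sum, mul_assoc]
    exact Finset.sum_comm

end ColAux

theorem cap (H : OkaS E) : Cap E := by
  intro α _
  induction α using Finite.induction_empty_option with
  | @of_equiv α β e ih =>
    intro ι _ x₀ h hh
    obtain ⟨m, r, hr, h1, h2⟩ := ih (fun a => ι (e a)) x₀ (fun a => h (e a)) fun a => hh (e a)
    refine ⟨m, r, hr, fun l => e.surjective.forall.2 (h1 l), ?_⟩
    filter_upwards [h2] with x hx f hf h3 using hx f hf fun a => h3 (e a)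
  | h_empty =>
    intro ι _ x₀ h _
    refine ⟨1, fun _ _ => 1, fun _ => analyticAt_const, fun _ a => a.elim,
      .of_forall fun x f hf _ => ⟨fun _ => f, fun _ => hf, .of_forall fun y => by simp⟩⟩
  | @h_option α _ ih =>
    intro ι _ x₀ h hh
    obtain ⟨m, r, hr, h1, h2⟩ := ih (fun a => ι (some a)) x₀ (fun a => h (some a))
      fun a => hh (some a)
    obtain ⟨m', r', hr', h3, h4, h5⟩ := ColAux.cap2 H x₀ (h none) r (hh none) hr
    refine ⟨m', r', hr', fun l => ?_, ?_⟩
    · rintro (_ | a)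
      exacts [h3 l, (h4 l).trans fun j => h1 j a]
    · filter_upwards [h2, h5] with x hx hx' f hf h6 using
        hx' f (h6 none) (hx f hf fun a => h6 (some a))

end Vale.Agent.P277Z.Oka
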