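import Vale.Agent.P277Z.Oka.Sk

/-!
# P277, block OKA: the theorem of Cartan on complex spaces
-/

open Filter Topology Set
open Vale.Agent.P277 Vale.Agent.P272.K

namespace Vale.Agent.P277Z.Oka

/-- a property which holds near `x` holds on the fibres of the model near `φ x` -/
theorem Csp.push {X : Type} [TopologicalSpace X] {Hol : (X → ℂ) → X → Prop} {V : Set X} {N k : ℕ}
    {Ω : Set (Cm N)} {h : Fin k → Cm N → ℂ} {φ : X → Cm N} (M : IsModel Hol V Ω h φ) {x : X}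
    (hx : x ∈ V) {P : X → Prop} (hP : ∀ᶠ y in 𝓝 x, P y) :
    ∀ᶠ z in 𝓝 (φ x), ∀ y ∈ V, φ y = z → P y := by
  have h1 : ∀ᶠ y : V in 𝓝 ⟨x, hx⟩, P y := continuous_subtype_val.continuousAt.eventually hP
  rw [M.emb.isInducing.nhds_eq_comap, eventually_comap] at h1
  exact h1.mono fun z hz y hy e => hz ⟨y, hy⟩ e

theorem carX (hc : All Car) : CarX := by
  intro X W A hA N k V Ω h φ M x hx
  obtain ⟨k', s, hs, e⟩ := hA x hx.2
  choose G hG hG' using fun j => (M.hol x hx.1 (s j)).1 (hs j)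
  have hΩ : φ x ∈ Ω := (M.image ▸ mem_image_of_mem φ hx.1 : φ x ∈ {z ∈ Ω | ∀ i, h i z = 0}).1
  have h1 : ∀ᶠ y in 𝓝 x, (y ∈ A ↔ ∀ j, G j (φ y) = 0) := by
    filter_upwards [e, eventually_all.2 hG'] with y h1 h2
    simpa only [h2, Function.comp] using h1
  have h2 : ∀ᶠ z in 𝓝 (φ x), z ∈ φ '' (V ∩ A) ↔ z ∈ Zs (Sum.elim h G) := by
    filter_upwards [Csp.push M hx.1 h1, M.isOpen'.mem_nhds hΩ] with z h3 h4
    constructor
    · rintro ⟨y, hy, rfl⟩ (i | j)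
      · exact (M.image ▸ mem_image_of_mem φ hy.1 : φ y ∈ {z ∈ Ω | ∀ i, h i z = 0}).2 i
      · exact (h3 y hy.1 rfl).1 hy.2 j
    · intro hz
      obtain ⟨y, hy, rfl⟩ : z ∈ φ '' V := M.image ▸ ⟨h4, fun i => hz (.inl i)⟩
      exact ⟨y, ⟨hy, (h3 y hy rfl).2 fun j => hz (.inr j)⟩, rfl⟩
  have h3 : ∀ i, AnalyticAt ℂ (Sum.elim h G i) (φ x) := by
    rintro (i | j)
    exacts [M.holo i _ hΩ, hG j]
  obtain ⟨m, g, hg, h4, h5⟩ := hc (Cm N) (Fin k ⊕ Fin k') (φ x) _ h3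
  refine ⟨m, g, hg, ?_, ?_⟩
  · have h6 : ∀ i, Van (φ x) (Zs g) (Sum.elim h G i) := fun i =>
      (h5.self_of_nhds _ (h3 i) (.of_forall fun y hy => hy i)).van
    filter_upwards [h2, eventually_all.2 h4, eventually_all.2 h6] with z e1 e2 e3
    exact e1.trans ⟨fun hz l => e2 l hz, fun hz i => e3 i hz⟩
  · filter_upwards [h2.eventually_nhds, h5] with z e1 e2 f hf hv
    refine e2 f hf ?_
    filter_upwards [e1, hv] with y e3 e4 hy using e4 (e3.2 hy)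

end Vale.Agent.P277Z.Oka
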