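import Vale.Agent.P277Z.Oka.Sk

/-!
# P277, block OKA: the rings of germs are Noetherian
-/

open Filter Topology
open Vale.Agent.P298.H941

noncomputable section

namespace Vale.Agent.P277Z.Oka

namespace NoeAux

theorem quot_reg {Y : Type} [NormedAddCommGroup Y] [NormedSpace ℂ Y] [IsNoetherianRing (O Y)]
    {f : ℂ × Y → ℂ} (hf : AnalyticAt ℂ f 0) (h : Reg f) :
    IsNoetherianRing (O (ℂ × Y) ⧸ Ideal.span ({mk f hf} : Set (O (ℂ × Y)))) := by
  obtain ⟨b, u, hu, hu0, e⟩ := h.form hf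
  have h1 : inlH Y (mk f hf) = zz ^ b * mk u hu := by
    unfold inlH zz
    rw [pull_mk, mk_pow, mk_mul, mk_eq_iff]
    exact e
  have h2 := finite_quot (mk f hf) (u := mk u hu)
    ((P298.H941.isUnit_iff _).2 (by rwa [ev0_mk])) h1
  set ψ := (Ideal.Quotient.mk (Ideal.span ({mk f hf} : Set (O (ℂ × Y))))).comp
    (sndH Y : O Y →+* O (ℂ × Y)) with hψ
  algebraize [ψ]
  exact IsNoetherianRing.of_finite (O Y) _

theorem step {E : Type} [NormedAddCommGroup E] [NormedSpace ℂ E] [FiniteDimensional ℂ E]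
    (ih : ∀ q : Submodule ℂ E, Module.finrank ℂ q < Module.finrank ℂ E → IsNoetherianRing (O q)) :
    IsNoetherianRing (O E) := by
  refine (isNoetherianRing_iff_ideal_fg _).2 fun I => ?_
  by_cases hI : I = ⊥
  · exact hI ▸ Submodule.fg_bot
  obtain ⟨g, hgI, hg0⟩ := Submodule.exists_mem_ne_zero_of_ne_bot hI
  obtain ⟨f, hf, rfl⟩ := exists_rep g
  by_cases h0 : f 0 = 0
  swap
  · rw [Ideal.eq_top_of_isUnit_mem I hgI ((P298.H941.isUnit_iff _).2 (by rwa [ev0_mk]))]
    exact Module.Finite.fg_top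
  obtain ⟨q, L, hq, hr⟩ := exists_reg hf h0 fun k =>
    hg0 (by rw [← gm_zero_eq hf]; exact (gm_eq_zero hf).2 k)
  have := ih q (by omega)
  have hf' : AnalyticAt ℂ (fun w => f (aff 0 L w)) 0 :=
    hf.comp_of_eq (ana_aff 0 L 0) (aff_zero 0 L)
  have := quot_reg hf' hr
  let ψ : O (ℂ × q) →+* O E := pull (affi 0 L) (ana_affi 0 L 0) (affi_self 0 L)
  have hψ : ∀ (a : E → ℂ) (ha : AnalyticAt ℂ a 0),
      ψ (mk (fun w => a (aff 0 L w)) (ha.comp_of_eq (ana_aff 0 L 0) (aff_zero 0 L))) = mk a ha :=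
    fun a ha => mk_congr _ _ (.of_forall fun y => by simp only [aff_affi])
  have hN : IsNoetherianRing (O E ⧸ Ideal.span ({mk f hf} : Set (O E))) := by
    refine isNoetherianRing_of_surjective
      (O (ℂ × q) ⧸ Ideal.span ({mk _ hf'} : Set (O (ℂ × q)))) _
      (Ideal.quotientMap _ ψ ?_) fun a => ?_
    · rw [Ideal.span_singleton_le_iff_mem, Ideal.mem_comap, hψ f hf]
      exact Ideal.mem_span_singleton_self _
    · obtain ⟨a, rfl⟩ := Ideal.Quotient.mk_surjective a
      obtain ⟨a, ha, rfl⟩ := exists_rep a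
      exact ⟨Ideal.Quotient.mk _ _, by rw [Ideal.quotientMap_mk, hψ a ha]⟩
  refine Ideal.fg_of_fg_map_of_fg_inf_ker_of_surjective
    (f := Ideal.Quotient.mk (Ideal.span ({mk f hf} : Set (O E))))
    (Ideal.fg_of_isNoetherianRing _) ?_ Ideal.Quotient.mk_surjective
  rw [Ideal.mk_ker, inf_eq_right.2 ((Ideal.span_singleton_le_iff_mem I).2 hgI)]
  exact Submodule.fg_span_singleton _

end NoeAux

theorem noe : Noe := by
  have key : ∀ (n : ℕ) (E : Type) [NormedAddCommGroup E] [NormedSpace ℂ E]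
      [FiniteDimensional ℂ E], Module.finrank ℂ E = n → IsNoetherianRing (O E) := by
    intro n
    induction n using Nat.strong_induction_on with
    | _ n ih => exact fun E _ _ _ h => NoeAux.step fun q hq => ih _ (h ▸ hq) q rfl
  exact fun E _ _ _ => key _ E rfl

end Vale.Agent.P277Z.Oka
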