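import Vale.Agent.P277Z.Oka.Sk

/-!
# P277, block OKA: the zero theorem for prime ideals, and its generic form at nearby points
-/

open Filter Topology Polynomial
open Vale.Agent.P298.H941

noncomputable section

namespace Vale.Agent.P277Z.Oka

namespace Nug

variable {Y : Type} [NormedAddCommGroup Y] [NormedSpace ℂ Y]

omit [NormedSpace ℂ Y] in
theorem pick {y : Y} {Q : ℂ × Y → Prop} (hQ : ∀ᶠ z in 𝓝 ((0 : ℂ), y), Q z) :
    ∃ ε > 0, ∀ᶠ w in 𝓝 y, ∀ s : ℂ, ‖s‖ < ε → Q (s, w) := by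
  obtain ⟨ε, hε, H⟩ := Metric.eventually_nhds_iff.1 hQ
  refine ⟨ε, hε, ?_⟩
  filter_upwards [Metric.ball_mem_nhds y hε] with w hw s hs
  exact H (by rw [Prod.dist_eq, max_lt_iff]; exact ⟨by simpa using hs, hw⟩)

/-- a simple zero can be followed -/
theorem follow {y : Y} {F : ℂ × Y → ℂ} (hF : AnalyticAt ℂ F (0, y)) {u : ℂ → ℂ}
    (hu : AnalyticAt ℂ u 0) (hu0 : u 0 ≠ 0) (hFu : ∀ᶠ s in 𝓝 (0 : ℂ), F (s, y) = s ^ 1 * u s)
    {Q : ℂ × Y → Prop} (hQ : ∀ᶠ z in 𝓝 ((0 : ℂ), y), Q z) :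
    ∀ᶠ w in 𝓝 y, ∃ s, F (s, w) = 0 ∧ Q (s, w) := by
  obtain ⟨P, v, h1, h2, h3, h4, h5, h6⟩ := P267.H823.weierstrass hF hu hu0 hFu
  obtain ⟨ε, hε, H⟩ := pick (hQ.and (h6.and (h4.continuousAt.eventually_ne h5)))
  filter_upwards [H, roots_small h1 (fun i => (h2 i).continuousAt) h3 hε] with w hw hr
  obtain ⟨s, hs⟩ := Complex.exists_root (f := P w)
    (natDegree_pos_iff_degree_pos.1 (by rw [(h1 w).2]; exact one_pos))
  obtain ⟨k1, k2, k3⟩ := hw s (hr s hs)
  exact ⟨s, (mul_eq_zero.1 (k2.trans hs)).resolve_right k3, k1⟩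

theorem pf_der {y : Y} {n : ℕ} {P : Y → ℂ[X]} (h : PF y n P) :
    PF y n fun w => derivative (P w) :=
  ⟨fun z => (natDegree_derivative_le _).trans ((Nat.sub_le _ _).trans (h.deg z)), fun i => by
    simp only [coeff_derivative]
    exact (h.ana _).fun_mul analyticAt_const⟩

variable {ι : Type} [Fintype ι] {h : ι → ℂ × Y → ℂ} {m : ℕ} {h' : Fin m → Y → ℂ} {d : ℕ}
  {g : Y → ℂ[X]}

theorem key (T : Tri Y h h' d g) : ∀ᶠ z in 𝓝 (0 : ℂ × Y),
    pf g z = 0 → z.2 ∈ Zs h' → (g z.2).coeff d ≠ 0 → z ∈ Zs h := by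
  obtain ⟨N, hN⟩ := T.gen
  filter_upwards [eventually_all.2 fun i => (hN i).van] with z hz h1 h2 h3 i
  exact (mul_eq_zero.1 (hz i (Option.forall.2 ⟨h1, h2⟩))).resolve_left (pow_ne_zero N h3)

theorem nul_step (IH : NulP Y) (T : Tri Y h h' d g) {f : ℂ × Y → ℂ} (hf : AnalyticAt ℂ f 0)
    (hv : Van 0 (Zs h) f) : In 0 h f := by
  by_contra hn
  obtain ⟨r, hr, hr', hin⟩ := T.norm f hf hn
  obtain ⟨ε, hε, H⟩ := pick (y := 0) ((key T).and (Eventually.and hv hin.van))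
  refine (T.pr.mul _ r (T.pfg.ana d) hr (IH _ 0 h' T.pr _ ((T.pfg.ana d).fun_mul hr) ?_)).elim
    T.lead hr'
  filter_upwards [H, T.small ε hε] with y h1 h2 hy
  by_cases ha : (g y).coeff d = 0
  · rw [ha, zero_mul]
  · obtain ⟨t, ht⟩ := Complex.exists_root (f := g y)
      (natDegree_pos_iff_degree_pos.1 (T.pos.trans_le (le_natDegree_of_ne_zero ha)))
    obtain ⟨k1, k2, k3⟩ := h1 t (h2 hy ha t ht)
    have k4 := k1 ht hy ha
    exact mul_eq_zero_of_right _ (k3 (Option.forall.2 ⟨k2 k4, k4⟩))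

theorem simple {p : ℂ[X]} {t : ℂ} (h0 : p.eval t = 0) (h1 : (derivative p).eval t ≠ 0) :
    ∃ u : ℂ → ℂ, AnalyticAt ℂ u 0 ∧ u 0 ≠ 0 ∧ ∀ s, p.eval (t + s) = s ^ 1 * u s := by
  obtain ⟨q, rfl⟩ := dvd_iff_isRoot.2 h0
  refine ⟨fun s => q.eval (t + s), ?_, by simpa using h1, fun s => by simp⟩
  exact (q.differentiable.comp ((differentiable_const t).add differentiable_id)).analyticAt 0

/-- the ideal at a point where the polynomial has a simple root -/
theorem at_root {t : ℂ} {y : Y} (hg : PF y d g) (h0 : pf g (t, y) = 0)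
    (h1 : (derivative (g y)).eval t ≠ 0) (ha : (g y).coeff d ≠ 0)
    (IH : ∀ r, AnalyticAt ℂ r y → Van y (Zs h') r → In y h' r) (mem : In (t, y) h (pf g))
    (up : ∀ j, In (t, y) h fun z => h' j z.2)
    (k : ∀ᶠ z in 𝓝 (t, y), pf g z = 0 → z.2 ∈ Zs h' → (g z.2).coeff d ≠ 0 → z ∈ Zs h)
    {f : ℂ × Y → ℂ} (hf : AnalyticAt ℂ f (t, y)) (hv : Van (t, y) (Zs h) f) : In (t, y) h f := by
  obtain ⟨u, hu, hu0, e⟩ := simple h0 h1
  have a1 : AnalyticAt ℂ (fun z : ℂ × Y => (t + z.1, z.2)) (0, y) :=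
    (analyticAt_const.add analyticAt_fst).prod analyticAt_snd
  have a2 : AnalyticAt ℂ (fun z : ℂ × Y => (z.1 - t, z.2)) (t, y) :=
    (analyticAt_fst.sub analyticAt_const).prod analyticAt_snd
  have t1 : Tendsto (fun z : ℂ × Y => (t + z.1, z.2)) (𝓝 (0, y)) (𝓝 (t, y)) := by
    simpa using a1.continuousAt.tendsto
  have t2 : Tendsto (fun z : ℂ × Y => (z.1 - t, z.2)) (𝓝 (t, y)) (𝓝 (0, y)) := by
    simpa using a2.continuousAt.tendsto
  have hF : AnalyticAt ℂ (fun z : ℂ × Y => pf g (t + z.1, z.2)) (0, y) :=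
    (hg.ana_pf t).comp_of_eq a1 (by simp)
  obtain ⟨v, r, h2, h3, h4⟩ := weierstrass_division hF hu hu0 (.of_forall e)
    (g := fun z => f (t + z.1, z.2)) (hf.comp_of_eq a1 (by simp))
  simp only [Fin.sum_univ_one, Fin.val_zero, pow_zero, mul_one] at h4
  have h5 : Van y (Zs h') (r 0) := by
    filter_upwards [follow hF hu hu0 (.of_forall e) (h4.and (t1.eventually (k.and hv))),
      (hg.ana d).continuousAt.eventually_ne ha] with w hw hw' hz
    obtain ⟨s, k1, k2, k3, k4⟩ := hw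
    have k5 := k4 (k3 k1 hz hw')
    rw [k1, k5, mul_zero, zero_add] at k2
    exact k2.symm
  have h6 : In (t, y) h fun z => r 0 z.2 :=
    ((IH _ (h3 0) h5).comp (x' := (t, y)) (Φ := Prod.snd) analyticAt_snd rfl).trans up
  refine ((mem.mul (h2.comp_of_eq a2 (by simp))).add h6).congr ?_
  filter_upwards [t2.eventually h4] with z hz
  simpa using hz.symm

theorem gen_step (IH : GenP Y) (hP : Pr 0 h) (T : Tri Y h h' d g) :
    ∃ δ, AnalyticAt ℂ δ 0 ∧ ¬ In 0 h δ ∧ ∀ᶠ z in 𝓝 (0 : ℂ × Y), δ z ≠ 0 →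
      ∀ f, AnalyticAt ℂ f z → Van z (Zs h) f → In z h f := by
  obtain ⟨δ, h1, h2, h3⟩ := IH _ 0 h' T.pr
  have a1 : AnalyticAt ℂ (fun z : ℂ × Y => δ z.2) 0 := h1.comp_of_eq analyticAt_snd rfl
  have a2 : AnalyticAt ℂ (fun z : ℂ × Y => (g z.2).coeff d) 0 :=
    (T.pfg.ana d).comp_of_eq analyticAt_snd rfl
  have a3 : AnalyticAt ℂ (pf fun y => derivative (g y)) 0 := (pf_der T.pfg).ana_pf 0
  refine ⟨fun z => δ z.2 * (g z.2).coeff d * pf (fun y => derivative (g y)) z,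
    (a1.fun_mul a2).fun_mul a3, fun k => ?_, ?_⟩
  · rcases hP.mul _ _ (a1.fun_mul a2) a3 k with k | k
    · exact (hP.mul _ _ a1 a2 k).elim (fun k => h2 (T.down _ h1 k))
        fun k => T.lead (T.down _ (T.pfg.ana d) k)
    · exact T.der k
  · have t1 : Tendsto (Prod.snd : ℂ × Y → Y) (𝓝 0) (𝓝 0) := continuous_snd.tendsto 0
    filter_upwards [t1.eventually (h3.and T.pfg.eventually), T.mem.eventually,
      eventually_all.2 fun j => (T.up j).eventually, (key T).eventually_nhds]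
      with ⟨t, y⟩ k1 k2 k3 k4 k5 f hf hv
    obtain ⟨k6, k7⟩ := mul_ne_zero_iff.1 k5
    obtain ⟨k8, k9⟩ := mul_ne_zero_iff.1 k6
    by_cases h0 : pf g (t, y) = 0
    · exact at_root k1.2 h0 k7 k9 (k1.1 k8) k2 k3 k4 hf hv
    · exact ((k2.mul hf).congr (.of_forall fun w => mul_comm _ _)).of_unit (k1.2.ana_pf t) h0

/-- induction on the dimension -/
theorem ind {P : ∀ (E : Type) [NormedAddCommGroup E] [NormedSpace ℂ E], Prop}
    (H : ∀ (E : Type) [NormedAddCommGroup E] [NormedSpace ℂ E] [FiniteDimensional ℂ E],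
      (∀ q : Submodule ℂ E, Module.finrank ℂ q + 1 = Module.finrank ℂ E → P q) → P E) :
    All P := by
  intro E _ _ _
  induction hn : Module.finrank ℂ E using Nat.strong_induction_on generalizing E with
  | _ n ih => exact H E fun q hq => ih _ (by omega) q rfl

variable {E : Type} [NormedAddCommGroup E] [NormedSpace ℂ E] [FiniteDimensional ℂ E]

/-- the two cases -/
theorem cases (hs : All Pst) {x : E} {h : ι → E → ℂ} (hP : Pr x h) :
    (∀ᶠ y in 𝓝 x, y ∈ Zs h) ∨ ∃ (q : Submodule ℂ E) (L : (ℂ × q) ≃L[ℂ] E) (m : ℕ)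
      (h' : Fin m → q → ℂ) (d : ℕ) (g : q → ℂ[X]),
      Module.finrank ℂ q + 1 = Module.finrank ℂ E ∧
        Tri q (fun i w => h i (aff x L w)) h' d g := by
  by_cases k : ∀ i, ∀ᶠ y in 𝓝 x, h i y = 0
  · exact Or.inl (eventually_all.2 k)
  · obtain ⟨i, hi⟩ := not_forall.1 k
    obtain ⟨q, L, e, hr⟩ := exists_reg (hP.ana i) (by
      by_contra k'
      exact hP.one (In.of_unit ((In.self x h i).congr (.of_forall fun y => (mul_one _).symm))
        (hP.ana i) k')) hi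
    obtain ⟨m, h', d, g, T⟩ := hs q ι _ (hP.aff x L) i hr
    exact Or.inr ⟨q, L, m, h', d, g, e, T⟩

end Nug

theorem nulP_all (hs : All Pst) : All NulP := Nug.ind fun E _ _ _ IH ι _ x h hP f hf hv => by
  rcases Nug.cases hs hP with k | ⟨q, L, m, h', d, g, e, T⟩
  · exact (In.zero x h).congr (by
      filter_upwards [k, hv] with y h1 h2 using (h2 h1).symm)
  · have := (in_aff x L 0).1 (Nug.nul_step (IH q e) T
      (hf.comp_of_eq (ana_aff x L 0) (aff_zero x L))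
      (hv.comp (ana_aff x L 0).continuousAt (aff_zero x L)))
    rwa [aff_zero] at this

theorem genP_all (hs : All Pst) : All GenP := Nug.ind fun E _ _ _ IH ι _ x h hP => by
  rcases Nug.cases hs hP with k | ⟨q, L, m, h', d, g, e, T⟩
  · refine ⟨fun _ => 1, analyticAt_const, hP.one, k.eventually_nhds.mono fun y hy _ f _ hv => ?_⟩
    exact (In.zero y h).congr (by
      filter_upwards [hy, hv] with w h1 h2 using (h2 h1).symm)
  · obtain ⟨δ, h1, h2, h3⟩ := Nug.gen_step (IH q e) (hP.aff x L) T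
    refine ⟨fun y => δ (affi x L y), h1.comp_of_eq (ana_affi x L x) (affi_self x L),
      fun k => h2 (by simpa using k.comp (ana_aff x L 0) (aff_zero x L)), ?_⟩
    filter_upwards [(tendsto_affi x L).eventually h3] with y hy k f hf hv
    have := (in_aff x L _).1 (hy k _ (hf.comp_of_eq (ana_aff x L _) (aff_affi x L y))
      (hv.comp (ana_aff x L _).continuousAt (aff_affi x L y)))
    rwa [aff_affi] at this

end Vale.Agent.P277Z.Oka
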