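import Vale.Agent.P277Z.Oka.Sk

/-!
# P277, block OKA: relations between polynomial families, one of which is monic
-/

open Filter Topology Polynomial
open Vale.Agent.P298.H941

noncomputable section

namespace Vale.Agent.P277Z.Oka

namespace OkpAux

/-- the polynomial with given coefficients -/
def mkP {n : ℕ} (a : Fin (n + 1) → ℂ) : ℂ[X] := ∑ j : Fin (n + 1), monomial (j : ℕ) (a j)

theorem natDegree_mkP {n : ℕ} (a : Fin (n + 1) → ℂ) : (mkP a).natDegree ≤ n :=
  natDegree_sum_le_of_forall_le _ _ fun j _ =>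
    (natDegree_monomial_le _).trans (Nat.le_of_lt_succ j.2)

theorem coeff_mkP {n : ℕ} (a : Fin (n + 1) → ℂ) (i : ℕ) :
    (mkP a).coeff i = ∑ j : Fin (n + 1), if (j : ℕ) = i then a j else 0 := by
  simp only [mkP, finsetSum_coeff, coeff_monomial]

theorem mkP_coeff {n : ℕ} {Q : ℂ[X]} (h : Q.natDegree ≤ n) :
    mkP (fun j : Fin (n + 1) => Q.coeff j) = Q := by
  rw [mkP, Fin.sum_univ_eq_sum_range (fun j => monomial j (Q.coeff j)) (n + 1)]
  exact (as_sum_range' Q _ (Nat.lt_succ_of_le h)).symm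

theorem eval_mkP {n : ℕ} (a : Fin (n + 1) → ℂ) (t : ℂ) :
    (mkP a).eval t = ∑ j, a j * t ^ (j : ℕ) := by
  simp only [mkP, eval_finsetSum, eval_monomial]

theorem coeff_lin {α : Type} [Fintype α] {n : ℕ} (P : α → ℂ[X]) (a : α × Fin (n + 1) → ℂ) (i : ℕ) :
    (∑ k, mkP (fun j => a (k, j)) * P k).coeff i =
      ∑ kj, a kj * (X ^ (kj.2 : ℕ) * P kj.1).coeff i := by
  rw [Fintype.sum_prod_type, finsetSum_coeff]
  refine Finset.sum_congr rfl fun k _ => ?_
  rw [mkP, Finset.sum_mul, finsetSum_coeff]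
  refine Finset.sum_congr rfl fun j _ => ?_
  rw [← C_mul_X_pow_eq_monomial, mul_assoc, coeff_C_mul]

theorem lin {α : Type} [Fintype α] {n : ℕ} (P : α → ℂ[X]) (hP : ∀ k, (P k).natDegree ≤ n)
    (a : α × Fin (n + 1) → ℂ)
    (h : ∀ i : Fin (2 * n + 1), ∑ kj, a kj * (X ^ (kj.2 : ℕ) * P kj.1).coeff i = 0) :
    ∑ k, mkP (fun j => a (k, j)) * P k = 0 := by
  refine Polynomial.ext fun i => ?_
  by_cases hi : i < 2 * n + 1
  · exact (coeff_lin P a i).trans (h ⟨i, hi⟩)
  · refine coeff_eq_zero_of_natDegree_lt (lt_of_le_of_lt (b := n + n) ?_ (by omega))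
    exact natDegree_sum_le_of_forall_le _ _ fun k _ =>
      natDegree_mul_le.trans (add_le_add (natDegree_mkP _) (hP k))

variable {Y : Type} [NormedAddCommGroup Y] [NormedSpace ℂ Y] {y : Y} {n : ℕ}

theorem pf_mkP {a : Fin (n + 1) → Y → ℂ} (ha : ∀ j, AnalyticAt ℂ (a j) y) :
    PF y n fun z => mkP fun j => a j z :=
  ⟨fun _ => natDegree_mkP _, fun i => by
    simp only [coeff_mkP]
    refine Finset.analyticAt_fun_sum _ fun j _ => ?_
    split_ifs
    exacts [ha j, analyticAt_const]⟩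

theorem ana_shift {P : Y → ℂ[X]} (h : PF y n P) (j i : ℕ) :
    AnalyticAt ℂ (fun z => (X ^ j * P z).coeff i) y := by
  simp only [coeff_X_pow_mul']
  split_ifs
  exacts [h.ana _, analyticAt_const]

theorem rel_of_pg {α : Type} [Fintype α] {P Q : α → Y → ℂ[X]} (hP : ∀ k, PF y n (P k))
    (hQ : ∀ k, PF y n (Q k)) (h : ∑ k, pg y n (Q k) * pg y n (P k) = 0) (i : ℕ) :
    ∀ᶠ z in 𝓝 y, (∑ k, Q k z * P k z).coeff i = 0 := by
  have h1 : ∀ (k : α) (x : ℕ × ℕ),
      AnalyticAt ℂ (fun z => (Q k z).coeff x.1 * (P k z).coeff x.2) y :=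
    fun k x => ((hQ k).ana _).fun_mul ((hP k).ana _)
  have h2 := congrArg (fun R => R.coeff i) h
  simp only [finsetSum_coeff, coeff_mul, coeff_zero] at h2 ⊢
  rw [← gm_eq_zero (Finset.analyticAt_fun_sum _ fun k _ =>
    Finset.analyticAt_fun_sum _ fun x _ => h1 k x),
    gm_sum _ fun k => Finset.analyticAt_fun_sum _ fun x _ => h1 k x, ← h2]
  refine Finset.sum_congr rfl fun k _ => ?_
  rw [gm_sum _ (h1 k)]
  refine Finset.sum_congr rfl fun x _ => ?_
  rw [gm_mul ((hQ k).ana _) ((hP k).ana _), (hQ k).coeff_pg, (hP k).coeff_pg]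

end OkpAux

open OkpAux

variable {Y : Type} [NormedAddCommGroup Y] [NormedSpace ℂ Y]

theorem okP (hW : Wal Y) (h : OkaV Y) : OkP Y := by
  intro κ _ P n hP hm
  obtain ⟨m, r, hr, hrel, hgen⟩ := h (Fin (2 * n + 1)) (Option κ × Fin (n + 1)) 0
    (fun kj i y => (X ^ (kj.2 : ℕ) * P kj.1 y).coeff i) fun kj i => ana_shift (hP _) _ _
  let G : Fin m → Option κ → Y → ℂ[X] := fun l k y => mkP fun j => r l (k, j) y
  have hG : ∀ l k, PF 0 n (G l k) := fun l k => pf_mkP fun j => hr l (k, j)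
  have hs : Tendsto (Prod.snd : ℂ × Y → Y) (𝓝 0) (𝓝 0) := continuous_snd.tendsto 0
  refine ⟨m, fun l k => pf (G l k), fun l k => (hG l k).ana_pf 0, fun l _ => ?_, ?_⟩
  · filter_upwards [hs.eventually (eventually_all.2 (hrel l))] with z hz
    have := congrArg (eval z.1) (lin _ (fun k => (hP k).deg z.2) (fun kj => r l kj z.2) hz)
    simp only [eval_finsetSum, eval_mul, eval_zero] at this
    exact this
  · filter_upwards [hs.eventually hgen, hs.eventually (eventually_all.2 fun k => (hP k).eventually),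
      hs.eventually (eventually_all.2 fun l => eventually_all.2 fun k => (hG l k).eventually)]
      with ⟨t, y⟩ hgen hP hG a ha hrel
    dsimp only at hgen hP hG
    have hs : Tendsto (Prod.snd : ℂ × Y → Y) (𝓝 (t, y)) (𝓝 y) := continuous_snd.tendsto (t, y)
    have h1 : (pg y n (P none)).Monic := by
      refine monic_of_natDegree_le_of_coeff_eq_one n (natDegree_pg _ _ _) ?_
      rw [(hP none).coeff_pg, ← gm_one y]
      congr 1
      funext z
      rw [← (hm z).2]
      exact (hm z).1.coeff_natDegree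
    have h2 : ∑ k, gm (t, y) (a k) * ev Y t (pg y n (P k)) = 0 := by
      rw [← (gm_eq_zero (Finset.analyticAt_fun_sum _ fun k _ =>
        (ha k).fun_mul ((hP k).ana_pf t))).2 (hrel ()),
        gm_sum _ fun k => (ha k).fun_mul ((hP k).ana_pf t)]
      exact Finset.sum_congr rfl fun k _ => by rw [gm_mul (ha k) ((hP k).ana_pf t), (hP k).ev_pg]
    have h3 : (fun k => gm (t, y) (a k)) ∈ Submodule.span (O (ℂ × Y))
        (Set.range fun l k => gm (t, y) (pf (G l k))) := by
      refine Submodule.span_le.2 ?_ (hW.rel t κ _ n h1 (fun k => natDegree_pg _ _ _) _ h2)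
      rintro _ ⟨ρ, hρ, hρ0, rfl⟩
      choose Q hQ e using fun k => pg_surj y (hρ k)
      obtain rfl : ρ = fun k => pg y n (Q k) := funext fun k => (e k).symm
      obtain ⟨c, hc, hce⟩ := hgen (fun kj z => (Q kj.1 z).coeff kj.2) (fun kj => (hQ _).ana _) (by
        intro i
        filter_upwards [rel_of_pg hP hQ hρ0 i] with z hz
        rw [← hz, ← coeff_lin (fun k => P k z) fun kj => (Q kj.1 z).coeff kj.2]
        simp only [mkP_coeff ((hQ _).deg z)])
      have hc' : ∀ l, AnalyticAt ℂ (fun z : ℂ × Y => c l z.2) (t, y) := fun l =>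
        (hc l).comp_of_eq analyticAt_snd rfl
      refine (Submodule.mem_span_range_iff_exists_fun _).2
        ⟨fun l => gm (t, y) fun z => c l z.2, funext fun k => ?_⟩
      rw [Finset.sum_apply, (hQ k).ev_pg]
      simp only [Pi.smul_apply, smul_eq_mul]
      rw [← Finset.sum_congr rfl fun l _ => gm_mul (hc' l) ((hG l k).ana_pf t),
        ← gm_sum _ fun l => (hc' l).fun_mul ((hG l k).ana_pf t)]
      symm
      refine gm_congr ((hQ k).ana_pf t) ?_
      filter_upwards [hs.eventually (eventually_all.2 fun j => hce (k, j))] with z hz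
      rw [pf, ← mkP_coeff ((hQ k).deg z.2), eval_mkP]
      simp only [pf, G, eval_mkP, hz, Finset.sum_mul, Finset.mul_sum, mul_assoc]
      exact Finset.sum_comm
    obtain ⟨b, hb⟩ := (Submodule.mem_span_range_iff_exists_fun _).1 h3
    choose c hc e using fun l => gm_surj (t, y) (b l)
    refine ⟨c, hc, fun k => ?_⟩
    rw [← gm_eq_iff (ha k) (Finset.analyticAt_fun_sum _ fun l _ => (hc l).fun_mul ((hG l k).ana_pf t)),
      gm_sum _ fun l => (hc l).fun_mul ((hG l k).ana_pf t), ← congrFun hb k, Finset.sum_apply]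
    exact Finset.sum_congr rfl fun l _ => by
      rw [gm_mul (hc l) ((hG l k).ana_pf t), e, Pi.smul_apply, smul_eq_mul]

end Vale.Agent.P277Z.Oka
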