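import Vale.Agent.P277Z.Oka.Sk

/-!
# P277, block OKA: relations between functions, one of which is regular
-/

open Filter Topology Polynomial
open Vale.Agent.P298.H941

noncomputable section

namespace Vale.Agent.P277Z.Oka

namespace Okr

variable {E : Type} [NormedAddCommGroup E] [NormedSpace ℂ E]

open Classical in
theorem transfer {κ κ' : Type} [Fintype κ] [Fintype κ'] {x₀ : E} {f : κ → E → ℂ} {g : κ' → E → ℂ}
    (A : κ → κ' → E → ℂ) (B : κ' → κ → E → ℂ) (hA : ∀ k k', AnalyticAt ℂ (A k k') x₀)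
    (hB : ∀ k' k, AnalyticAt ℂ (B k' k) x₀)
    (h1 : ∀ᶠ y in 𝓝 x₀, ∀ k, f k y = ∑ k', A k k' y * g k' y)
    (h2 : ∀ᶠ y in 𝓝 x₀, ∀ k', g k' y = ∑ k, B k' k y * f k y)
    (h3 : ∀ᶠ y in 𝓝 x₀, ∀ k l, ∑ k', A k k' y * B k' l y = if k = l then 1 else 0)
    (h : RelFT E x₀ fun k (_ : Unit) => g k) : RelFT E x₀ fun k (_ : Unit) => f k := by
  obtain ⟨m, r, hr, hrel, hgen⟩ := h
  refine ⟨m, fun l k y => ∑ k', r l k' y * B k' k y,
    fun l k => Finset.analyticAt_fun_sum _ fun k' _ => (hr l k').fun_mul (hB k' k), fun l i => ?_,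
    ?_⟩
  · filter_upwards [hrel l i, h2] with y e1 e2
    simp only [e2, Finset.mul_sum] at e1
    simp only [Finset.sum_mul, mul_assoc]
    rwa [Finset.sum_comm]
  · filter_upwards [hgen, h1.eventually_nhds, h3.eventually_nhds,
      eventually_all.2 fun k => eventually_all.2 fun k' => (hA k k').eventually_analyticAt]
      with x e1 e2 e3 e4 a ha hra
    obtain ⟨c, hc, e5⟩ := e1 (fun k' y => ∑ k, a k y * A k k' y)
      (fun k' => Finset.analyticAt_fun_sum _ fun k _ => (ha k).fun_mul (e4 k k')) fun i => by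
        filter_upwards [hra i, e2] with y e5 e6
        simp only [e6, Finset.mul_sum] at e5
        simp only [Finset.sum_mul, mul_assoc]
        rwa [Finset.sum_comm]
    refine ⟨c, hc, fun k => ?_⟩
    filter_upwards [eventually_all.2 e5, e3] with y e6 e7
    have e8 : a k y = ∑ j, a j y * ∑ k', A j k' y * B k' k y := by simp [e7]
    simp only [Finset.mul_sum, ← mul_assoc] at e8 ⊢
    rw [e8, Finset.sum_comm]
    simp only [← Finset.sum_mul, e6]
    simp only [Finset.sum_mul]
    exact Finset.sum_comm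

variable {Y : Type} [NormedAddCommGroup Y] [NormedSpace ℂ Y]

theorem pf_rem {b : ℕ} {y : Y} {r : Fin b → Y → ℂ} (hr : ∀ i, AnalyticAt ℂ (r i) y) :
    PF y b fun z => ∑ i : Fin b, monomial i (r i z) where
  deg _ := natDegree_sum_le_of_forall_le _ _ fun i _ => (natDegree_monomial_le _).trans i.2.le
  ana j := by
    simp only [finsetSum_coeff, coeff_monomial]
    refine Finset.analyticAt_fun_sum _ fun i _ => ?_
    split_ifs
    exacts [hr i, analyticAt_const]

end Okr

variable {Y : Type} [NormedAddCommGroup Y] [NormedSpace ℂ Y]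

/-- ROW OKR -/
theorem okR (h : OkP Y) : OkR Y := by
  classical
  intro κ _ f k₀ hf hreg
  obtain ⟨b, u, hu, hu0, e⟩ := hreg.form (hf k₀)
  obtain ⟨P, v, hP, hPa, -, hv, hv0, e1⟩ := P267.H823.weierstrass (p0 := 0) (hf k₀) hu hu0 e
  choose q r hq hr e2 using fun k => weierstrass_division (p0 := 0) (hf k₀) hu hu0 e (hf k)
  have e3 : ∀ᶠ z : ℂ × Y in 𝓝 0, v z ≠ 0 ∧ pf P z = v z * f k₀ z ∧
      ∀ k, pf (fun y => ∑ i : Fin b, monomial i (r k i y)) z = f k z - q k z * f k₀ z := by
    filter_upwards [hv.continuousAt.eventually_ne hv0, e1, eventually_all.2 e2] with z h1 h2 h3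
    refine ⟨h1, by rw [mul_comm, h2, pf], fun k => ?_⟩
    rw [h3 k, add_sub_cancel_left, pf, eval_finsetSum]
    simp only [eval_monomial]
  refine Okr.transfer (fun k o => o.elim (fun z => q k z / v z) fun j _ => if k = j then 1 else 0)
    (fun o l => o.elim (fun z => if k₀ = l then v z else 0)
      fun j z => (if j = l then 1 else 0) - if k₀ = l then q j z else 0) ?_ ?_ ?_ ?_ ?_
    (h κ (fun o => o.elim P fun k y => ∑ i : Fin b, monomial i (r k i y)) b ?_ hP)
  · rintro k (_ | j)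
    exacts [(hq k).fun_div hv hv0, analyticAt_const]
  · rintro (_ | j) l <;> by_cases hl : k₀ = l <;> simp only [Option.elim, hl, if_true, if_false]
    exacts [hv, analyticAt_const, analyticAt_const.fun_sub (hq j), analyticAt_const]
  · filter_upwards [e3] with z ⟨h1, h2, h3⟩ k
    simp [h1, h2, h3, ← mul_assoc]
  · filter_upwards [e3] with z ⟨h1, h2, h3⟩
    rintro (_ | j) <;> simp [h2, h3, sub_mul]
  · filter_upwards [e3] with z ⟨h1, h2, h3⟩ k l
    by_cases hl : k₀ = l <;> simp [h1, hl]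
  · rintro (_ | k)
    exacts [⟨fun z => (hP z).2.le, hPa⟩, Okr.pf_rem (hr k)]

end Vale.Agent.P277Z.Oka
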