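import Vale.Agent.P277Z.Oka.Sk

/-!
# P277, block OKA: the induction for the coherence theorem
-/

open Filter Topology

noncomputable section

namespace Vale.Agent.P277Z.Oka

variable {E : Type} [NormedAddCommGroup E] [NormedSpace ℂ E]
variable {E' : Type} [NormedAddCommGroup E'] [NormedSpace ℂ E']
variable {ι κ : Type} [Fintype κ] {x₀ : E} {f : κ → ι → E → ℂ}

/-- generators indexed by any finite type -/
theorem relFT_of {μ : Type} [Fintype μ] (r : μ → κ → E → ℂ) (h1 : ∀ l k, AnalyticAt ℂ (r l k) x₀)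
    (h2 : ∀ l i, ∀ᶠ y in 𝓝 x₀, ∑ k, r l k y * f k i y = 0)
    (h3 : ∀ᶠ x in 𝓝 x₀, ∀ a : κ → E → ℂ, (∀ k, AnalyticAt ℂ (a k) x) →
      (∀ i, ∀ᶠ y in 𝓝 x, ∑ k, a k y * f k i y = 0) →
      ∃ c : μ → E → ℂ, (∀ l, AnalyticAt ℂ (c l) x) ∧
        ∀ k, ∀ᶠ y in 𝓝 x, a k y = ∑ l, c l y * r l k y) : RelFT E x₀ f := by
  let e := (Fintype.equivFin μ).symm
  refine ⟨_, fun l => r (e l), fun l => h1 _, fun l => h2 _, h3.mono fun x hx a ha h => ?_⟩
  obtain ⟨c, hc, h4⟩ := hx a ha h
  exact ⟨fun l => c (e l), fun l => hc _, fun k => (h4 k).mono fun y hy =>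
    hy.trans (e.sum_comp fun l => c l y * r l k y).symm⟩

theorem relFT_zero (h : ∀ k i, ∀ᶠ y in 𝓝 x₀, f k i y = 0) : RelFT E x₀ f := by
  classical
  refine relFT_of (fun l k _ => if l = k then 1 else 0) (fun _ _ => analyticAt_const)
    (fun l i => (h l i).mono fun y hy => by simpa using hy)
    (.of_forall fun x a ha _ => ⟨a, ha, fun k => .of_forall fun y => by simp⟩)

theorem relFT_unit {f : κ → E → ℂ} (hf : ∀ k, AnalyticAt ℂ (f k) x₀) {k₀ : κ} (h : f k₀ x₀ ≠ 0) :
    RelFT E x₀ fun k (_ : Unit) => f k := by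
  classical
  have h0 := (hf k₀).continuousAt.eventually_ne h
  refine relFT_of
    (fun l k y => (if l = k then 1 else 0) - if k = k₀ then f l y / f k₀ y else 0) (fun l k => ?_)
    (fun l _ => h0.mono fun y hy => by simp [sub_mul, hy])
    (.of_forall fun x a ha hr => ⟨a, ha, fun k => (hr ()).mono fun y hy => ?_⟩)
  · refine analyticAt_const.fun_sub ?_
    split_ifs
    exacts [(hf l).fun_div (hf k₀) h, analyticAt_const]
  · by_cases e : k = k₀
    · simp [mul_sub, e, ← mul_div_assoc, ← Finset.sum_div, hy]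
    · simp [e]

theorem RelFT.of_aff (L : E' ≃L[ℂ] E) (h : RelFT E' 0 fun k i w => f k i (aff x₀ L w)) :
    RelFT E x₀ f := by
  obtain ⟨m, r, h1, h2, h3⟩ := h
  refine ⟨m, fun l k y => r l k (affi x₀ L y),
    fun l k => (h1 l k).comp_of_eq (ana_affi x₀ L x₀) (affi_self x₀ L),
    fun l i => ((tendsto_affi x₀ L).eventually (h2 l i)).mono fun y hy => by simpa using hy,
    ((tendsto_affi x₀ L).eventually h3).mono fun x hx a ha hr => ?_⟩
  have t : Tendsto (aff x₀ L) (𝓝 (affi x₀ L x)) (𝓝 x) := by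
    simpa using (ana_aff x₀ L (affi x₀ L x)).continuousAt.tendsto
  obtain ⟨c, hc, h4⟩ := hx (fun k w => a k (aff x₀ L w))
    (fun k => (ha k).comp_of_eq (ana_aff x₀ L _) (aff_affi x₀ L x)) fun i => t.eventually (hr i)
  exact ⟨fun l y => c l (affi x₀ L y), fun l => (hc l).comp (ana_affi x₀ L x), fun k =>
    ((ana_affi x₀ L x).continuousAt.tendsto.eventually (h4 k)).mono fun y hy => by simpa using hy⟩

theorem sum_swap_mul {μ : Type} [Fintype μ] (c : μ → ℂ) (r : μ → κ → ℂ) (g : κ → ℂ) :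
    ∑ k, (∑ l, c l * r l k) * g k = ∑ l, c l * ∑ k, r l k * g k := by
  simp only [Finset.sum_mul, Finset.mul_sum, mul_assoc]
  exact Finset.sum_comm

theorem okaV_of (h : OkaS E) : OkaV E := by
  intro ι κ _
  induction ι using Finite.induction_empty_option generalizing κ with
  | of_equiv e ih =>
    intro _ x₀ f hf
    obtain ⟨m, r, h1, h2, h3⟩ := ih κ x₀ (fun k i => f k (e i)) fun k i => hf k _
    exact ⟨m, r, h1, fun l => e.surjective.forall.2 (h2 l),
      h3.mono fun x hx a ha hr => hx a ha fun i => hr _⟩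
  | h_empty =>
    intro _ _ _ _
    exact relFT_zero fun _ i => i.elim
  | h_option ih =>
    intro _ x₀ f hf
    obtain ⟨m, r, h1, h2, h3⟩ := h κ x₀ (fun k => f k none) fun k => hf k _
    obtain ⟨m', s, s1, s2, s3⟩ := ih (Fin m) x₀ (fun l i y => ∑ k, r l k y * f k (some i) y)
      fun l i => Finset.analyticAt_fun_sum _ fun k _ => (h1 l k).fun_mul (hf k _)
    refine ⟨m', fun j k y => ∑ l, s j l y * r l k y,
      fun j k => Finset.analyticAt_fun_sum _ fun l _ => (s1 j l).fun_mul (h1 l k), ?_, ?_⟩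
    · rintro j (_ | i)
      · filter_upwards [eventually_all.2 fun l => h2 l ()] with y hy
        rw [sum_swap_mul]
        exact Finset.sum_eq_zero fun l _ => by rw [hy l, mul_zero]
      · exact (s2 j i).mono fun y hy => (sum_swap_mul _ _ _).trans hy
    · filter_upwards [h3, s3] with x hx hx' a ha hr
      obtain ⟨c, hc, h4⟩ := hx a ha fun _ => hr none
      obtain ⟨d, hd, h5⟩ := hx' c hc fun i => by
        filter_upwards [eventually_all.2 h4, hr (some i)] with y hy hy'
        rw [← sum_swap_mul, ← hy']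
        exact Finset.sum_congr rfl fun k _ => by rw [hy k]
      refine ⟨d, hd, fun k => ?_⟩
      filter_upwards [eventually_all.2 h5, h4 k] with y hy hy'
      rw [← sum_swap_mul, hy']
      exact Finset.sum_congr rfl fun l _ => by rw [hy l]

theorem okaS_of [FiniteDimensional ℂ E]
    (h : ∀ q : Submodule ℂ E, Module.finrank ℂ q + 1 = Module.finrank ℂ E → OkR q) : OkaS E := by
  intro κ _ x₀ f hf
  by_cases h0 : ∀ k, ∀ᶠ y in 𝓝 x₀, f k y = 0
  · exact relFT_zero fun k _ => h0 k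
  obtain ⟨k₀, hk⟩ := not_forall.1 h0
  by_cases h1 : f k₀ x₀ = 0
  · obtain ⟨q, L, hq, hL⟩ := exists_reg (hf k₀) h1 hk
    exact RelFT.of_aff L (h q hq κ (fun k w => f k (aff x₀ L w)) k₀
      (fun k => (hf k).comp_of_eq (ana_aff x₀ L 0) (aff_zero x₀ L)) hL)
  · exact relFT_unit hf h1

theorem oka (hW : All Wal) (hP : All fun Y _ _ => Wal Y → OkaV Y → OkP Y)
    (hR : All fun Y _ _ => OkP Y → OkR Y) : All OkaV := by
  intro E _ _ _
  induction hn : Module.finrank ℂ E using Nat.strong_induction_on generalizing E with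
  | _ n ih =>
    exact okaV_of (okaS_of fun q hq => hR q (hP q (hW q) (ih _ (by omega) q rfl)))

end Vale.Agent.P277Z.Oka
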