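import Vale.Agent.P277Z.Oka.Sk

/-!
# P277, block OKA: the structure of a prime ideal with a regular element
-/

open Filter Topology Polynomial
open Vale.Agent.P298.H941

noncomputable section

namespace Vale.Agent.P277Z.Oka

namespace PstA

variable {Y : Type} [NormedAddCommGroup Y] [NormedSpace ℂ Y]

theorem snd0 {a : Y → ℂ} (ha : AnalyticAt ℂ a 0) :
    gm (0 : ℂ × Y) (fun z => a z.2) = sndH Y (gm 0 a) := gm_snd (t := 0) ha

theorem ana0 {a : Y → ℂ} (ha : AnalyticAt ℂ a 0) :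
    AnalyticAt ℂ (fun z : ℂ × Y => a z.2) 0 := ha.comp_of_eq analyticAt_snd rfl

theorem ev_mem {J : Ideal (O (ℂ × Y))} {f : (O Y)[X]} (h : ∀ i, sndH Y (f.coeff i) ∈ J) :
    ev Y 0 f ∈ J := by
  rw [ev, coe_eval₂RingHom, eval₂_eq_sum, Polynomial.sum]
  exact J.sum_mem fun i _ => J.mul_mem_right _ (h i)

theorem prep {F : ℂ × Y → ℂ} (hF : AnalyticAt ℂ F 0) (h : Reg F) :
    ∃ (b : ℕ) (P : Y → ℂ[X]), PF 0 b P ∧ (pg 0 b P).Monic ∧
      (∃ v, ev Y 0 (pg 0 b P) = v * gm 0 F) ∧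
      (∀ G, ∃ v R, G = v * ev Y 0 (pg 0 b P) + ev Y 0 R) ∧
      ∀ ε > 0, ∀ᶠ y in 𝓝 (0 : Y), ∀ t, (P y).eval t = 0 → ‖t‖ < ε := by
  obtain ⟨b, u, hu, hu0, hb⟩ := h.form hF
  obtain ⟨P, v, h1, h2, h3, hv, hv0, h4⟩ := P267.H823.weierstrass (p0 := 0) hF hu hu0 hb
  have hP : PF 0 b P := ⟨fun z => (h1 z).2.le, h2⟩
  have hv' : AnalyticAt ℂ v 0 := hv
  have e : ev Y 0 (pg 0 b P) = gm 0 v * gm 0 F := by
    rw [hP.ev_pg, ← gm_mul hv' hF]
    exact gm_congr (hP.ana_pf 0) (h4.mono fun z hz => by rw [mul_comm, hz]; rfl)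
  refine ⟨b, P, hP, monic_of_natDegree_le_of_coeff_eq_one b (natDegree_pg _ _ _) ?_, ⟨_, e⟩,
    fun G => ?_, fun ε hε => roots_small h1 (fun i => (h2 i).continuousAt) h3 hε⟩
  · rw [hP.coeff_pg, ← gm_one (0 : Y)]
    exact gm_congr (h2 b) (.of_forall fun z => by rw [← (h1 z).2]; exact (h1 z).1.coeff_natDegree)
  · obtain ⟨G, hG, rfl⟩ := gm_surj 0 G
    obtain ⟨w, r, hw, hr, h5⟩ := weierstrass_division (p0 := 0) hF hu hu0 hb hG
    have hw' : AnalyticAt ℂ w 0 := hw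
    obtain ⟨c, hc⟩ := ((isUnit_gm hv').2 hv0).exists_left_inv
    have a1 : ∀ i : Fin b, AnalyticAt ℂ (fun z : ℂ × Y => r i z.2 * z.1 ^ (i : ℕ)) 0 := fun i =>
      (ana0 (hr i)).fun_mul (analyticAt_fst.fun_pow _)
    refine ⟨gm 0 w * c, ∑ i : Fin b, C (gm 0 (r i)) * X ^ (i : ℕ), ?_⟩
    rw [e, mul_assoc, ← mul_assoc c, hc, one_mul, gm_congr hG h5,
      gm_add (hw'.fun_mul hF) (Finset.analyticAt_fun_sum _ fun i _ => a1 i), gm_mul hw' hF,
      gm_sum _ a1, map_sum]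
    congr 1
    refine Finset.sum_congr rfl fun i _ => ?_
    rw [gm_mul (ana0 (hr i)) (analyticAt_fst.fun_pow _), gm_pow analyticAt_fst, snd0 (hr i),
      map_mul, map_pow, ev_C, ev_X, ← gm_fst 0 0]
    rfl

theorem pf_der {d : ℕ} {g : Y → ℂ[X]} (hg : PF 0 d g) : PF 0 d (fun y => derivative (g y)) ∧
    pg 0 d (fun y => derivative (g y)) = derivative (pg 0 d g) := by
  have h : PF 0 d fun y => derivative (g y) :=
    ⟨fun z => (natDegree_derivative_le _).trans ((Nat.sub_le _ _).trans (hg.deg z)), fun i => by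
      simp only [coeff_derivative]
      exact (hg.ana _).fun_mul analyticAt_const⟩
  refine ⟨h, Polynomial.ext fun i => ?_⟩
  rw [h.coeff_pg, coeff_derivative, hg.coeff_pg]
  simp only [coeff_derivative]
  rw [gm_mul (hg.ana _) analyticAt_const, gm_const, map_add, map_natCast, map_one]

theorem pf_mul {n m : ℕ} {P Q : Y → ℂ[X]} (hP : PF 0 n P) (hQ : PF 0 m Q) :
    PF 0 (n + m) (fun y => P y * Q y) ∧
      pg 0 (n + m) (fun y => P y * Q y) = pg 0 n P * pg 0 m Q := by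
  have h : PF 0 (n + m) fun y => P y * Q y :=
    ⟨fun z => natDegree_mul_le.trans (add_le_add (hP.deg z) (hQ.deg z)), fun i => by
      simp only [coeff_mul]
      exact Finset.analyticAt_fun_sum _ fun k _ => (hP.ana _).fun_mul (hQ.ana _)⟩
  refine ⟨h, Polynomial.ext fun i => ?_⟩
  rw [h.coeff_pg]
  simp only [coeff_mul]
  rw [gm_sum _ fun k : ℕ × ℕ => (hP.ana k.1).fun_mul (hQ.ana k.2)]
  exact Finset.sum_congr rfl fun k _ => by
    rw [gm_mul (hP.ana _) (hQ.ana _), hP.coeff_pg, hQ.coeff_pg]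

theorem ev_eq {m n n' : ℕ} {h' : Fin m → Y → ℂ} (hh : ∀ j, AnalyticAt ℂ (h' j) 0) {a : Y → ℂ}
    (ha : AnalyticAt ℂ a 0) {P Q : Y → ℂ[X]} (hP : PF 0 n P) (hQ : PF 0 n' Q)
    (h : ∀ i, (C (gm 0 a) * pg 0 n P - pg 0 n' Q).coeff i ∈ idl 0 h') :
    ∀ᶠ y in 𝓝 (0 : Y), y ∈ Zs h' → C (a y) * P y = Q y := by
  have h1 : ∀ i, Van 0 (Zs h') fun y => a y * (P y).coeff i - (Q y).coeff i := fun i => by
    refine In.van ((in_iff hh ((ha.fun_mul (hP.ana i)).fun_sub (hQ.ana i))).2 ?_)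
    rw [gm_sub (ha.fun_mul (hP.ana i)) (hQ.ana i), gm_mul ha (hP.ana i), ← hP.coeff_pg,
      ← hQ.coeff_pg, ← coeff_C_mul, ← coeff_sub]
    exact h i
  filter_upwards [(Finset.range (n + n' + 1)).eventually_all.2 fun i _ => h1 i] with y hy hz
  refine Polynomial.ext fun i => ?_
  rw [coeff_C_mul]
  by_cases hi : i < n + n' + 1
  · exact sub_eq_zero.1 (hy i (Finset.mem_range.2 hi) hz)
  · rw [coeff_eq_zero_of_natDegree_lt ((hP.deg y).trans_lt (by omega)),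
      coeff_eq_zero_of_natDegree_lt ((hQ.deg y).trans_lt (by omega)), mul_zero]

end PstA

open PstA

variable {Y : Type} [NormedAddCommGroup Y] [NormedSpace ℂ Y]

theorem pst (hA : Alg) (hN : IsNoetherianRing (O Y)) : Pst Y := by
  intro ι _ h H i₀ hr
  have hp := (pr_iff H.ana).1 H
  obtain ⟨b, P, hP, hm, ⟨v₀, e₀⟩, hdiv, hs⟩ := prep (H.ana i₀) hr
  have hi : ∀ i, gm 0 (h i) ∈ idl 0 h := fun i => Ideal.subset_span ⟨i, rfl⟩
  have hPq : ev Y 0 (pg 0 b P) ∈ idl 0 h := e₀ ▸ Ideal.mul_mem_left _ _ (hi i₀)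
  obtain ⟨m, h', hh', e'⟩ := exists_idl (0 : Y) (IsNoetherian.noetherian
    ((idl 0 h).comap (sndH Y : O Y →+* O (ℂ × Y))))
  have hC : ∀ c, C c ∈ (idl 0 h).comap (ev Y 0) ↔ c ∈ idl 0 h' := fun c => by
    rw [e', Ideal.mem_comap, Ideal.mem_comap, ev_C]
    rfl
  have hS : ∀ c, sndH Y c ∈ idl 0 h ↔ c ∈ idl 0 h' := fun c => by
    rw [← hC, Ideal.mem_comap, ev_C]
  obtain ⟨g₀, hg₀, hd, hl, hder, hgen, hno⟩ :=
    hA (O Y) ((idl 0 h).comap (ev Y 0)) (hp.comap _) _ hPq hm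
  obtain ⟨g, hg, eg⟩ := pg_surj (0 : Y) (le_refl g₀.natDegree)
  have ea : gm 0 (fun y => (g y).coeff g₀.natDegree) = g₀.leadingCoeff := by
    rw [← hg.coeff_pg, eg]
    rfl
  generalize g₀.natDegree = d at hd hg eg ea
  have ev_g : ev Y 0 g₀ = gm 0 (pf g) := eg ▸ hg.ev_pg 0
  have ag : AnalyticAt ℂ (pf g) 0 := hg.ana_pf 0
  simp only [hC] at hl hgen hno
  refine ⟨m, h', d, g, (pr_iff hh').2 (e' ▸ hp.comap _), fun j => ?_, fun r hr k => ?_, hg, hd,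
    (in_iff H.ana ag).2 (ev_g ▸ hg₀), fun k => hl (ea ▸ (in_iff hh' (hg.ana d)).1 k),
    fun k => hder ?_, ?_, fun ε hε => ?_, fun f hf k => ?_⟩
  · rw [in_iff H.ana (ana0 (hh' j)), snd0 (hh' j), hS]
    exact Ideal.subset_span ⟨j, rfl⟩
  · rwa [in_iff H.ana (ana0 hr), snd0 hr, hS, ← in_iff hh' hr] at k
  · rw [Ideal.mem_comap, ← eg, ← (pf_der hg).2, (pf_der hg).1.ev_pg]
    exact (in_iff H.ana ((pf_der hg).1.ana_pf 0)).1 k
  · have aJ : ∀ o : Option (Fin m), AnalyticAt ℂ (o.elim (pf g) fun j z => h' j z.2) 0 := by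
      rintro (_ | j)
      exacts [ag, ana0 (hh' j)]
    generalize hJ : idl 0 (fun o : Option (Fin m) => o.elim (pf g) fun j z => h' j z.2) = J
    have j1 : ev Y 0 g₀ ∈ J := ev_g ▸ hJ ▸ Ideal.subset_span ⟨none, rfl⟩
    have j2 : idl 0 h' ≤ J.comap (sndH Y : O Y →+* O (ℂ × Y)) := Ideal.span_le.2 (by
      rintro _ ⟨j, rfl⟩
      show sndH Y (gm 0 (h' j)) ∈ J
      rw [← snd0 (hh' j), ← hJ]
      exact Ideal.subset_span ⟨some j, rfl⟩)
    have j3 : ∀ f ∈ (idl 0 h).comap (ev Y 0), ∃ N : ℕ,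
        sndH Y g₀.leadingCoeff ^ N * ev Y 0 f ∈ J := fun f hf => by
      obtain ⟨N, s, k⟩ := hgen f hf
      have k1 := J.add_mem (ev_mem fun i => j2 (k i)) (J.mul_mem_left (ev Y 0 s) j1)
      rw [map_sub, map_mul, map_mul, map_pow, ev_C, sub_add_cancel] at k1
      exact ⟨N, k1⟩
    have j4 : ∀ i, ∃ N : ℕ, sndH Y g₀.leadingCoeff ^ N * gm 0 (h i) ∈ J := fun i => by
      obtain ⟨v, R, e⟩ := hdiv (gm 0 (h i))
      obtain ⟨N, k⟩ := j3 _ hPq
      obtain ⟨N', k'⟩ := j3 R (by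
        rw [Ideal.mem_comap, ← sub_eq_iff_eq_add'.2 e]
        exact Ideal.sub_mem _ (hi i) (Ideal.mul_mem_left _ _ hPq))
      refine ⟨N + N', ?_⟩
      convert J.add_mem (J.mul_mem_left (sndH Y g₀.leadingCoeff ^ N' * v) k)
        (J.mul_mem_left (sndH Y g₀.leadingCoeff ^ N) k') using 1
      rw [e]
      ring
    choose N hN using j4
    refine ⟨∑ i, N i, fun i => ?_⟩
    obtain ⟨c, hc⟩ := Nat.exists_eq_add_of_le'
      (Finset.single_le_sum (f := N) (fun _ _ => Nat.zero_le _) (Finset.mem_univ i))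
    rw [in_iff aJ (((ana0 (hg.ana d)).fun_pow _).fun_mul (H.ana i)), hJ,
      gm_mul ((ana0 (hg.ana d)).fun_pow _) (H.ana i), gm_pow (ana0 (hg.ana d)), snd0 (hg.ana d),
      ea, hc, pow_add, mul_assoc]
    exact J.mul_mem_left _ (hN i)
  · obtain ⟨N, s, k⟩ := hgen _ hPq
    obtain ⟨S, hS', eS⟩ := pg_surj (0 : Y) (le_refl s.natDegree)
    filter_upwards [hs ε hε, ev_eq hh' ((hg.ana d).fun_pow N) hP (pf_mul hS' hg).1 fun i => by
      rw [(pf_mul hS' hg).2, eS, eg, gm_pow (hg.ana d), ea, C_pow]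
      exact k i] with y h1 h2 hy h3 t ht
    have h4 := congrArg (eval t) (h2 hy)
    rw [eval_mul, eval_mul, ht, mul_zero, eval_C] at h4
    exact h1 t ((mul_eq_zero.1 h4).resolve_left (pow_ne_zero _ h3))
  · rw [in_iff H.ana hf] at k
    obtain ⟨v, R, e⟩ := hdiv (gm 0 f)
    obtain ⟨r, s, k1, k2⟩ := hno R fun k' =>
      k (e ▸ Ideal.add_mem _ (Ideal.mul_mem_left _ _ hPq) k')
    obtain ⟨r, hr, rfl⟩ := gm_surj 0 r
    have aJ : ∀ o : Option ι, AnalyticAt ℂ (o.elim f h) 0 := by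
      rintro (_ | j)
      exacts [hf, H.ana j]
    refine ⟨r, hr, fun k' => k1 ((in_iff hh' hr).1 k'), ?_⟩
    rw [in_iff aJ (ana0 hr), snd0 hr]
    generalize hJ : idl 0 (fun o : Option ι => o.elim f h) = J
    have j1 : gm 0 f ∈ J := hJ ▸ Ideal.subset_span ⟨none, rfl⟩
    have j2 : idl 0 h ≤ J := Ideal.span_le.2 (by
      rintro _ ⟨j, rfl⟩
      exact hJ ▸ Ideal.subset_span ⟨some j, rfl⟩)
    have j3 := j2 k2
    rw [map_sub, map_mul, ev_C, ← sub_eq_iff_eq_add'.2 e] at j3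
    simpa using J.add_mem j3
      (J.mul_mem_left (ev Y 0 s) (J.sub_mem j1 (J.mul_mem_left v (j2 hPq))))

end Vale.Agent.P277Z.Oka
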