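import Vale.Agent.P277Z.Oka.Wal
import Vale.Agent.P277Z.Oka.Noe
import Vale.Agent.P277Z.Oka.Okp
import Vale.Agent.P277Z.Oka.Okr
import Vale.Agent.P277Z.Oka.Okv
import Vale.Agent.P277Z.Oka.Alg
import Vale.Agent.P277Z.Oka.Pst
import Vale.Agent.P277Z.Oka.Nug
import Vale.Agent.P277Z.Oka.Col
import Vale.Agent.P277Z.Oka.Car
import Vale.Agent.P277Z.Oka.Csp

/-!
# P277, block OKA: the theorems
-/

namespace Vale.Agent.P277Z.Oka

theorem okaV_all : All OkaV :=
  oka (fun Y _ _ _ => wal Y) (fun _ _ _ _ => okP) fun _ _ _ _ => okR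

theorem okaS_all : All OkaS := fun E _ _ _ κ _ x f hf =>
  okaV_all E Unit κ x _ fun k _ => hf k

theorem col_all : All Col := fun E _ _ _ => col (okaS_all E)

theorem cap_all : All Cap := fun E _ _ _ => cap (okaS_all E)

theorem pst_all : All Pst := fun E _ _ _ => pst alg (noe E)

theorem nulP_all' : All NulP := nulP_all pst_all

theorem genP_all' : All GenP := genP_all pst_all

theorem nul_all : All Nul := fun E _ _ _ => nul (noe E) (nulP_all' E)

theorem carP_all : All CarP := fun E _ _ _ => carP (genP_all' E) (col_all E) (nul_all E)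

theorem car_all : All Car := fun E _ _ _ => car (noe E) (carP_all E) (cap_all E)

theorem carX_all : CarX := carX car_all

end Vale.Agent.P277Z.Oka
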