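import Vale.Agent.P298.H941.Fin
import Vale.Agent.P298.H941.Poly
import Vale.Agent.P277.H29.Germ

/-!
# P277, block OKA: germs at a point, ideals of germs, polynomial families
-/

open Filter Topology Polynomial
open Vale.Agent.P298.H941

set_option linter.unusedSectionVars false

noncomputable section

namespace Vale.Agent.P277Z.Oka

variable {E : Type} [NormedAddCommGroup E] [NormedSpace ℂ E]
variable {E' : Type} [NormedAddCommGroup E'] [NormedSpace ℂ E']

/-! ### Germs at a point -/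

theorem ana_tr {x : E} {f : E → ℂ} (hf : AnalyticAt ℂ f x) :
    AnalyticAt ℂ (fun z => f (x + z)) 0 :=
  hf.comp_of_eq (analyticAt_const.add analyticAt_id) (add_zero x)

theorem tendsto_tr (x : E) : Tendsto (fun z => x + z) (𝓝 0) (𝓝 x) := by
  simpa using (continuous_const_add x).tendsto 0

theorem tendsto_tr' (x : E) : Tendsto (fun z => z - x) (𝓝 x) (𝓝 0) := by
  simpa using (continuous_sub_right x).tendsto x

open Classical in
/-- the germ of `f` at `x`, translated to the origin -/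
def gm (x : E) (f : E → ℂ) : O E :=
  if h : AnalyticAt ℂ f x then mk (fun z => f (x + z)) (ana_tr h) else 0

theorem gm_eq {x : E} {f : E → ℂ} (hf : AnalyticAt ℂ f x) :
    gm x f = mk (fun z => f (x + z)) (ana_tr hf) := dif_pos hf

theorem gm_zero_eq {f : E → ℂ} (hf : AnalyticAt ℂ f 0) : gm 0 f = mk f hf := by
  rw [gm_eq hf]
  exact mk_congr _ _ (.of_forall fun z => by rw [zero_add])

theorem gm_surj (x : E) (a : O E) : ∃ f, AnalyticAt ℂ f x ∧ gm x f = a := by
  obtain ⟨f, hf, rfl⟩ := exists_rep a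
  have h : AnalyticAt ℂ (fun z => f (z - x)) x :=
    hf.comp_of_eq (analyticAt_id.sub analyticAt_const) (sub_self x)
  refine ⟨_, h, ?_⟩
  rw [gm_eq h]
  exact mk_congr _ _ (.of_forall fun z => by rw [add_sub_cancel_left])

section gm

variable {x : E} {f g : E → ℂ}

theorem gm_eq_iff (hf : AnalyticAt ℂ f x) (hg : AnalyticAt ℂ g x) :
    gm x f = gm x g ↔ ∀ᶠ y in 𝓝 x, f y = g y := by
  rw [gm_eq hf, gm_eq hg, mk_eq_iff]
  refine ⟨fun h => ?_, fun h => (tendsto_tr x).eventually h⟩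
  filter_upwards [(tendsto_tr' x).eventually h] with y hy
  simpa using hy

theorem gm_congr (hf : AnalyticAt ℂ f x) (h : ∀ᶠ y in 𝓝 x, f y = g y) : gm x f = gm x g :=
  (gm_eq_iff hf (hf.congr h)).2 h

theorem gm_add (hf : AnalyticAt ℂ f x) (hg : AnalyticAt ℂ g x) :
    gm x (fun y => f y + g y) = gm x f + gm x g := by
  rw [gm_eq hf, gm_eq hg, gm_eq (hf.fun_add hg)]; rfl

theorem gm_sub (hf : AnalyticAt ℂ f x) (hg : AnalyticAt ℂ g x) :
    gm x (fun y => f y - g y) = gm x f - gm x g := by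
  rw [gm_eq hf, gm_eq hg, gm_eq (hf.fun_sub hg)]; rfl

theorem gm_mul (hf : AnalyticAt ℂ f x) (hg : AnalyticAt ℂ g x) :
    gm x (fun y => f y * g y) = gm x f * gm x g := by
  rw [gm_eq hf, gm_eq hg, gm_eq (hf.fun_mul hg)]; rfl

theorem gm_neg (hf : AnalyticAt ℂ f x) : gm x (fun y => -f y) = -gm x f := by
  rw [gm_eq hf, gm_eq hf.fun_neg]; rfl

theorem gm_pow (hf : AnalyticAt ℂ f x) (n : ℕ) : gm x (fun y => f y ^ n) = gm x f ^ n := by
  rw [gm_eq hf, gm_eq (hf.fun_pow n)]; rfl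

theorem gm_const (x : E) (c : ℂ) : gm x (fun _ => c) = algebraMap ℂ (O E) c := by
  rw [gm_eq analyticAt_const]; rfl

theorem gm_zero (x : E) : gm x (fun _ => 0) = 0 := by rw [gm_const, map_zero]

theorem gm_one (x : E) : gm x (fun _ => 1) = 1 := by rw [gm_const, map_one]

theorem gm_eq_zero (hf : AnalyticAt ℂ f x) : gm x f = 0 ↔ ∀ᶠ y in 𝓝 x, f y = 0 := by
  rw [← gm_zero x, gm_eq_iff hf analyticAt_const]

theorem gm_sum {ι : Type*} (s : Finset ι) {f : ι → E → ℂ} (hf : ∀ i, AnalyticAt ℂ (f i) x) :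
    gm x (fun y => ∑ i ∈ s, f i y) = ∑ i ∈ s, gm x (f i) := by
  rw [gm_eq (Finset.analyticAt_fun_sum s fun i _ => hf i),
    Finset.sum_congr rfl fun i _ => gm_eq (hf i), mk_sum]

theorem gm_prod {ι : Type*} (s : Finset ι) {f : ι → E → ℂ} (hf : ∀ i, AnalyticAt ℂ (f i) x) :
    gm x (fun y => ∏ i ∈ s, f i y) = ∏ i ∈ s, gm x (f i) := by
  rw [gm_eq (Finset.analyticAt_fun_prod s fun i _ => hf i),
    Finset.prod_congr rfl fun i _ => gm_eq (hf i), mk_prod]

theorem ev0_gm (hf : AnalyticAt ℂ f x) : ev0 E (gm x f) = f x := by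
  rw [gm_eq hf, ev0_mk, add_zero]

theorem isUnit_gm (hf : AnalyticAt ℂ f x) : IsUnit (gm x f) ↔ f x ≠ 0 := by
  rw [P298.H941.isUnit_iff, ev0_gm hf]

end gm

/-! ### Ideals, in terms of functions -/

variable {ι κ : Type} [Fintype ι] [Fintype κ]

/-- the germ of `f` at `x` is a combination of the germs of the `g i` -/
def In (x : E) (g : ι → E → ℂ) (f : E → ℂ) : Prop :=
  ∃ c : ι → E → ℂ, (∀ i, AnalyticAt ℂ (c i) x) ∧ ∀ᶠ y in 𝓝 x, f y = ∑ i, c i y * g i y

/-- `f` vanishes on `A` near `x` -/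
def Van (x : E) (A : Set E) (f : E → ℂ) : Prop := ∀ᶠ y in 𝓝 x, y ∈ A → f y = 0

/-- the common zeros -/
def Zs (g : ι → E → ℂ) : Set E := {y | ∀ i, g i y = 0}

/-- the ideal generated by the germs -/
def idl (x : E) (g : ι → E → ℂ) : Ideal (O E) := Ideal.span (Set.range fun i => gm x (g i))

/-- the germs at `x` generate a prime ideal -/
structure Pr (x : E) (g : ι → E → ℂ) : Prop where
  ana : ∀ i, AnalyticAt ℂ (g i) x
  one : ¬ In x g fun _ => 1
  mul : ∀ a b, AnalyticAt ℂ a x → AnalyticAt ℂ b x → In x g (fun y => a y * b y) →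
    In x g a ∨ In x g b

section ideal

variable {x : E} {g : ι → E → ℂ} {f f' : E → ℂ}

theorem In.ana (h : In x g f) (hg : ∀ i, AnalyticAt ℂ (g i) x) : AnalyticAt ℂ f x :=
  let ⟨_, hc, e⟩ := h
  (Finset.analyticAt_fun_sum _ fun i _ => (hc i).fun_mul (hg i)).congr (e.mono fun _ h => h.symm)

theorem in_iff (hg : ∀ i, AnalyticAt ℂ (g i) x) (hf : AnalyticAt ℂ f x) :
    In x g f ↔ gm x f ∈ idl x g := by
  rw [idl, Ideal.mem_span_range_iff_exists_fun]
  have key : ∀ c : ι → E → ℂ, (∀ i, AnalyticAt ℂ (c i) x) →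
      (∑ i, gm x (c i) * gm x (g i) = gm x f ↔ ∀ᶠ y in 𝓝 x, f y = ∑ i, c i y * g i y) := by
    intro c hc
    rw [← gm_eq_iff hf (Finset.analyticAt_fun_sum _ fun i _ => (hc i).fun_mul (hg i)),
      gm_sum _ fun i => (hc i).fun_mul (hg i), eq_comm,
      Finset.sum_congr rfl fun i _ => gm_mul (hc i) (hg i)]
  refine ⟨fun ⟨c, hc, e⟩ => ⟨_, (key c hc).2 e⟩, fun ⟨a, e⟩ => ?_⟩
  choose c hc hca using fun i => gm_surj x (a i)
  exact ⟨c, hc, (key c hc).1 (by simpa only [hca] using e)⟩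

theorem In.eventually (h : In x g f) : ∀ᶠ y in 𝓝 x, In y g f := by
  obtain ⟨c, hc, e⟩ := h
  filter_upwards [eventually_all.2 fun i => (hc i).eventually_analyticAt,
    e.eventually_nhds] with y h1 h2 using ⟨c, h1, h2⟩

theorem In.congr (h : In x g f) (e : ∀ᶠ y in 𝓝 x, f y = f' y) : In x g f' :=
  let ⟨c, hc, e'⟩ := h
  ⟨c, hc, by filter_upwards [e, e'] with y h1 h2 using h1 ▸ h2⟩

theorem In.van (h : In x g f) : Van x (Zs g) f :=
  let ⟨_, _, e⟩ := h
  e.mono fun y h1 h2 => by rw [h1]; exact Finset.sum_eq_zero fun i _ => by rw [h2 i, mul_zero]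

theorem In.self (x : E) (g : ι → E → ℂ) (i : ι) : In x g (g i) := by
  classical
  exact ⟨fun j _ => if j = i then 1 else 0, fun _ => analyticAt_const, .of_forall fun y => by simp⟩

theorem In.zero (x : E) (g : ι → E → ℂ) : In x g fun _ => 0 :=
  ⟨fun _ _ => 0, fun _ => analyticAt_const, .of_forall fun y => by simp⟩

theorem In.add (h : In x g f) (h' : In x g f') : In x g fun y => f y + f' y := by
  obtain ⟨c, hc, e⟩ := h
  obtain ⟨c', hc', e'⟩ := h'
  refine ⟨fun i y => c i y + c' i y, fun i => (hc i).fun_add (hc' i), ?_⟩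
  filter_upwards [e, e'] with y h1 h2
  simp only [h1, h2, add_mul, Finset.sum_add_distrib]

theorem In.mul (h : In x g f) (h' : AnalyticAt ℂ f' x) : In x g fun y => f' y * f y := by
  obtain ⟨c, hc, e⟩ := h
  refine ⟨fun i y => f' y * c i y, fun i => h'.fun_mul (hc i), ?_⟩
  filter_upwards [e] with y h1
  simp only [h1, Finset.mul_sum, mul_assoc]

theorem In.sum {α : Type*} (s : Finset α) {f : α → E → ℂ} (h : ∀ a ∈ s, In x g (f a)) :
    In x g fun y => ∑ a ∈ s, f a y := by
  classical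
  induction s using Finset.induction_on with
  | empty => exact In.zero x g
  | insert a s ha ih =>
    simp only [Finset.sum_insert ha]
    exact (h a (by simp)).add (ih fun b hb => h b (by simp [hb]))

theorem In.trans {g' : κ → E → ℂ} (h : In x g f) (h' : ∀ i, In x g' (g i)) : In x g' f :=
  let ⟨_, hc, e⟩ := h
  (In.sum Finset.univ fun i _ => (h' i).mul (hc i)).congr (e.mono fun _ h => h.symm)

theorem In.of_unit (h : In x g fun y => f' y * f y) (h' : AnalyticAt ℂ f' x) (h0 : f' x ≠ 0) :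
    In x g f :=
  (h.mul (h'.fun_inv h0)).congr (by
    filter_upwards [h'.continuousAt.eventually_ne h0] with y hy
    rw [← mul_assoc, inv_mul_cancel₀ hy, one_mul])

theorem In.comp {x' : E'} {Φ : E' → E} (h : In x g f) (hΦ : AnalyticAt ℂ Φ x') (e : Φ x' = x) :
    In x' (fun i y => g i (Φ y)) fun y => f (Φ y) :=
  let ⟨c, hc, e'⟩ := h
  ⟨fun i y => c i (Φ y), fun i => (hc i).comp_of_eq hΦ e,
    (e ▸ hΦ.continuousAt.tendsto : Tendsto Φ (𝓝 x') (𝓝 x)).eventually e'⟩

theorem Van.comp {x' : E'} {Φ : E' → E} {A : Set E} (h : Van x A f) (hΦ : ContinuousAt Φ x')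
    (e : Φ x' = x) : Van x' (Φ ⁻¹' A) fun y => f (Φ y) :=
  (e ▸ hΦ.tendsto : Tendsto Φ (𝓝 x') (𝓝 x)).eventually h

theorem Van.eventually {A : Set E} (h : Van x A f) : ∀ᶠ y in 𝓝 x, Van y A f := h.eventually_nhds

theorem pr_iff (hg : ∀ i, AnalyticAt ℂ (g i) x) : Pr x g ↔ (idl x g).IsPrime := by
  refine ⟨fun h => ⟨fun e => h.one ((in_iff hg analyticAt_const).2 (e ▸ trivial)), ?_⟩, fun h =>
    ⟨hg, fun e => h.ne_top ((Ideal.eq_top_iff_one _).2
      (gm_one x ▸ (in_iff hg analyticAt_const).1 e)), fun a b ha hb e => ?_⟩⟩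
  · intro a b e
    obtain ⟨a, ha, rfl⟩ := gm_surj x a
    obtain ⟨b, hb, rfl⟩ := gm_surj x b
    rw [← gm_mul ha hb, ← in_iff hg (ha.fun_mul hb)] at e
    rw [← in_iff hg ha, ← in_iff hg hb]
    exact h.mul a b ha hb e
  · rw [in_iff hg (ha.fun_mul hb), gm_mul ha hb] at e
    rw [in_iff hg ha, in_iff hg hb]
    exact h.mem_or_mem e

/-- every finitely generated ideal of germs is generated by the germs of finitely many functions -/
theorem exists_idl (x : E) {I : Ideal (O E)} (h : I.FG) :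
    ∃ (m : ℕ) (g : Fin m → E → ℂ), (∀ i, AnalyticAt ℂ (g i) x) ∧ idl x g = I := by
  obtain ⟨m, s, rfl⟩ := Submodule.fg_iff_exists_fin_generating_family.1 h
  choose g hg e using fun i => gm_surj x (s i)
  exact ⟨m, g, hg, by simp only [idl, e]⟩

end ideal

/-! ### Affine changes of coordinates -/

/-- the affine isomorphism `z ↦ x + L z` -/
def aff (x : E) (L : E' ≃L[ℂ] E) (z : E') : E := x + L z

/-- its inverse -/
def affi (x : E) (L : E' ≃L[ℂ] E) (y : E) : E' := L.symm (y - x)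

section aff

variable (x : E) (L : E' ≃L[ℂ] E)

@[simp] theorem aff_zero : aff x L 0 = x := by simp [aff]

@[simp] theorem affi_self : affi x L x = 0 := by simp [affi]

@[simp] theorem aff_affi (y : E) : aff x L (affi x L y) = y := by simp [aff, affi]

@[simp] theorem affi_aff (z : E') : affi x L (aff x L z) = z := by simp [aff, affi]

theorem ana_aff (z : E') : AnalyticAt ℂ (aff x L) z := analyticAt_const.add (L.analyticAt z)

theorem ana_affi (y : E) : AnalyticAt ℂ (affi x L) y :=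
  (L.symm.analyticAt _).comp (analyticAt_id.sub analyticAt_const)

theorem tendsto_affi : Tendsto (affi x L) (𝓝 x) (𝓝 0) := by
  simpa using (ana_affi x L x).continuousAt.tendsto

theorem tendsto_aff : Tendsto (aff x L) (𝓝 0) (𝓝 x) := by
  simpa using (ana_aff x L 0).continuousAt.tendsto

theorem in_aff {g : ι → E → ℂ} {f : E → ℂ} (z : E') :
    In z (fun i w => g i (aff x L w)) (fun w => f (aff x L w)) ↔ In (aff x L z) g f :=
  ⟨fun h => by simpa using h.comp (ana_affi x L (aff x L z)) (affi_aff x L z),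
    fun h => h.comp (ana_aff x L z) rfl⟩

theorem Pr.aff {g : ι → E → ℂ} (h : Pr x g) : Pr (0 : E') fun i w => g i (aff x L w) := by
  have e := aff_zero x L
  refine ⟨fun i => (h.ana i).comp_of_eq (ana_aff x L 0) e,
    fun k => h.one (e ▸ (in_aff x L (f := fun _ => 1) 0).1 k), fun a b ha hb k => ?_⟩
  have h1 := h.mul (fun y => a (affi x L y)) (fun y => b (affi x L y))
    (ha.comp_of_eq (ana_affi x L x) (affi_self x L)) (hb.comp_of_eq (ana_affi x L x) (affi_self x L))
    (by simpa using k.comp (ana_affi x L x) (affi_self x L))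
  exact h1.imp (fun k => by simpa using k.comp (ana_aff x L 0) e)
    fun k => by simpa using k.comp (ana_aff x L 0) e

end aff

/-- `f` does not vanish identically on the first axis -/
def Reg {Y : Type} [NormedAddCommGroup Y] (f : ℂ × Y → ℂ) : Prop :=
  ¬ ∀ᶠ t in 𝓝 (0 : ℂ), f (t, 0) = 0

theorem Reg.form {Y : Type} [NormedAddCommGroup Y] [NormedSpace ℂ Y] {f : ℂ × Y → ℂ} (h : Reg f)
    (hf : AnalyticAt ℂ f 0) : ∃ (b : ℕ) (u : ℂ → ℂ), AnalyticAt ℂ u 0 ∧ u 0 ≠ 0 ∧
      ∀ᶠ t in 𝓝 (0 : ℂ), f (t, 0) = t ^ b * u t := by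
  have hf' : AnalyticAt ℂ (fun t : ℂ => f (t, 0)) 0 :=
    hf.comp_of_eq (analyticAt_id.prod analyticAt_const) rfl
  obtain ⟨b, hb⟩ := ENat.ne_top_iff_exists.1 (mt analyticOrderAt_eq_top.1 h)
  obtain ⟨u, hu, hu0, h2⟩ := (hf'.analyticOrderAt_eq_natCast).1 hb.symm
  exact ⟨b, u, hu, hu0, h2.mono fun z hz => by simpa using hz⟩

/-- a germ which is not zero is regular after an affine change of coordinates -/
theorem exists_reg [FiniteDimensional ℂ E] {x : E} {f : E → ℂ} (hf : AnalyticAt ℂ f x)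
    (h0 : f x = 0) (h : ¬ ∀ᶠ y in 𝓝 x, f y = 0) :
    ∃ (q : Submodule ℂ E) (L : (ℂ × q) ≃L[ℂ] E), Module.finrank ℂ q + 1 = Module.finrank ℂ E ∧
      Reg fun w => f (aff x L w) := by
  obtain ⟨r, hr, hb⟩ := Metric.eventually_nhds_iff_ball.1 hf.eventually_analyticAt
  obtain ⟨y₁, hy₁, hj⟩ : ∃ y ∈ Metric.ball x r, f y ≠ 0 := by
    by_contra! k
    exact h (by filter_upwards [Metric.ball_mem_nhds x hr] with y hy using k y hy)
  set η : E := y₁ - x with hη
  have hη0 : η ≠ 0 := fun h => hj (by rw [sub_eq_zero.1 h, h0])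
  obtain ⟨q, hq⟩ := Submodule.exists_isCompl (Submodule.span ℂ {η})
  set T : (ℂ × q) ≃L[ℂ] E := LinearEquiv.toContinuousLinearEquiv
    (((LinearEquiv.toSpanNonzeroSingleton ℂ E η hη0).prodCongr (LinearEquiv.refl ℂ q)).trans
      (Submodule.prodEquivOfIsCompl _ _ hq)) with hT
  have hTa : ∀ t : ℂ, aff x T (t, 0) = x + t • η := by
    intro t
    rw [hT]
    simp [aff, Submodule.coe_prodEquivOfIsCompl']
  refine ⟨q, T, ?_, fun k => hj ?_⟩
  · rw [← T.toLinearEquiv.finrank_eq, Module.finrank_prod, Module.finrank_self, add_comm]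
  · have hD : {t : ℂ | x + t • η ∈ Metric.ball x r} = Metric.ball 0 (r / ‖η‖) := by
      ext t
      simp [norm_smul, lt_div_iff₀ (norm_pos_iff.2 hη0)]
    have ha : AnalyticOnNhd ℂ (fun t : ℂ => f (aff x T (t, 0)))
        {t : ℂ | x + t • η ∈ Metric.ball x r} := fun t ht =>
      (hb _ ht).comp_of_eq ((ana_aff x T _).comp (analyticAt_id.prod analyticAt_const)) (hTa t)
    have := ha.eqOn_zero_of_preconnected_of_eventuallyEq_zero
      (hD ▸ (convex_ball _ _).isPreconnected) (z₀ := 0) (by simpa using hr) k (x := 1)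
      (by simpa [hη, dist_eq_norm] using hy₁)
    simpa [hTa, hη] using this

/-! ### Polynomials -/

variable {Y : Type} [NormedAddCommGroup Y] [NormedSpace ℂ Y]

/-- polynomials with coefficients germs, as germs at the point with first coordinate `t` -/
def ev (Y : Type) [NormedAddCommGroup Y] [NormedSpace ℂ Y] (t : ℂ) : (O Y)[X] →+* O (ℂ × Y) :=
  eval₂RingHom (sndH Y : O Y →+* O (ℂ × Y)) (fstG Y + algebraMap ℂ _ t)

theorem ev_C (t : ℂ) (a : O Y) : ev Y t (C a) = sndH Y a := eval₂_C _ _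

theorem ev_X (t : ℂ) : ev Y t X = fstG Y + algebraMap ℂ _ t := eval₂_X _ _

theorem gm_snd {t : ℂ} {y : Y} {a : Y → ℂ} (ha : AnalyticAt ℂ a y) :
    gm (t, y) (fun z => a z.2) = sndH Y (gm y a) := by
  rw [gm_eq ha, gm_eq (x := (t, y)) (f := fun z => a z.2) (ha.comp_of_eq analyticAt_snd rfl)]
  rfl

theorem gm_fst (t : ℂ) (y : Y) : gm (t, y) (fun z => z.1) = fstG Y + algebraMap ℂ _ t := by
  rw [gm_eq analyticAt_fst, add_comm]; rfl

/-- a family of polynomials of degree at most `n` whose coefficients are analytic at `y` -/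
structure PF (y : Y) (n : ℕ) (P : Y → ℂ[X]) : Prop where
  deg : ∀ z, (P z).natDegree ≤ n
  ana : ∀ i, AnalyticAt ℂ (fun z => (P z).coeff i) y

/-- the function defined by a family of polynomials -/
def pf (P : Y → ℂ[X]) (z : ℂ × Y) : ℂ := (P z.2).eval z.1

/-- the polynomial over the ring of germs defined by a family of polynomials -/
def pg (y : Y) (n : ℕ) (P : Y → ℂ[X]) : (O Y)[X] :=
  ∑ i ∈ Finset.range (n + 1), monomial i (gm y fun z => (P z).coeff i)

section poly

variable {y : Y} {n : ℕ} {P Q : Y → ℂ[X]}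

theorem PF.eventually (h : PF y n P) : ∀ᶠ z in 𝓝 y, PF z n P := by
  filter_upwards [(Finset.range (n + 1)).eventually_all.2 fun i _ =>
    (h.ana i).eventually_analyticAt] with z hz
  refine ⟨h.deg, fun i => ?_⟩
  by_cases hi : i < n + 1
  · exact hz i (Finset.mem_range.2 hi)
  · exact analyticAt_const.congr (.of_forall fun w =>
      (coeff_eq_zero_of_natDegree_lt ((h.deg w).trans_lt (by omega))).symm)

theorem PF.mono (h : PF y n P) {m : ℕ} (hm : n ≤ m) : PF y m P :=
  ⟨fun z => (h.deg z).trans hm, h.ana⟩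

theorem PF.pf_eq (h : PF y n P) (z : ℂ × Y) :
    pf P z = ∑ i ∈ Finset.range (n + 1), (P z.2).coeff i * z.1 ^ i :=
  eval_eq_sum_range' (Nat.lt_succ_of_le (h.deg _)) _

theorem PF.ana_pf (h : PF y n P) (t : ℂ) : AnalyticAt ℂ (pf P) (t, y) := by
  rw [funext h.pf_eq]
  exact Finset.analyticAt_fun_sum _ fun i _ =>
    ((h.ana i).comp_of_eq analyticAt_snd rfl).fun_mul (analyticAt_fst.fun_pow i)

theorem PF.coeff_pg (h : PF y n P) (i : ℕ) :
    (pg y n P).coeff i = gm y fun z => (P z).coeff i := by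
  simp only [pg, finsetSum_coeff, coeff_monomial, Finset.sum_ite_eq', Finset.mem_range]
  split_ifs with hi
  · rfl
  · rw [← gm_zero y]
    exact gm_congr analyticAt_const (.of_forall fun w =>
      (coeff_eq_zero_of_natDegree_lt ((h.deg w).trans_lt (by omega))).symm)

theorem natDegree_pg (y : Y) (n : ℕ) (P : Y → ℂ[X]) : (pg y n P).natDegree ≤ n :=
  natDegree_sum_le_of_forall_le _ _ fun _ hi =>
    (natDegree_monomial_le _).trans (Nat.le_of_lt_succ (Finset.mem_range.1 hi))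

theorem PF.ev_pg (h : PF y n P) (t : ℂ) : ev Y t (pg y n P) = gm (t, y) (pf P) := by
  have h1 : ∀ i, AnalyticAt ℂ (fun z : ℂ × Y => (P z.2).coeff i) (t, y) := fun i =>
    (h.ana i).comp_of_eq analyticAt_snd rfl
  rw [funext h.pf_eq, gm_sum _ fun i => (h1 i).fun_mul (analyticAt_fst.fun_pow i), pg, map_sum]
  refine Finset.sum_congr rfl fun i _ => ?_
  rw [gm_mul (h1 i) (analyticAt_fst.fun_pow i), gm_pow analyticAt_fst, gm_fst, gm_snd (h.ana i),
    ← C_mul_X_pow_eq_monomial, map_mul, map_pow, ev_C, ev_X]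

theorem pg_surj (y : Y) {R : (O Y)[X]} (hR : R.natDegree ≤ n) : ∃ P, PF y n P ∧ pg y n P = R := by
  choose c hc e using fun i => gm_surj y (R.coeff i)
  have h2 : ∀ z i, (∑ j ∈ Finset.range (n + 1), monomial j (c j z)).coeff i =
      if i < n + 1 then c i z else 0 := fun z i => by
    simp only [finsetSum_coeff, coeff_monomial, Finset.sum_ite_eq', Finset.mem_range]
  have h : PF y n fun z => ∑ j ∈ Finset.range (n + 1), monomial j (c j z) :=
    ⟨fun z => natDegree_sum_le_of_forall_le _ _ fun _ hi =>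
      (natDegree_monomial_le _).trans (Nat.le_of_lt_succ (Finset.mem_range.1 hi)), fun i => by
        simp only [h2]
        split_ifs
        exacts [hc i, analyticAt_const]⟩
  refine ⟨_, h, Polynomial.ext fun i => ?_⟩
  rw [h.coeff_pg]
  simp only [h2]
  split_ifs with hi
  · exact e i
  · rw [gm_zero, coeff_eq_zero_of_natDegree_lt (hR.trans_lt (by omega))]

theorem pg_eq_iff {m : ℕ} (h : PF y n P) (h' : PF y m Q) :
    pg y n P = pg y m Q ↔ ∀ᶠ z in 𝓝 y, P z = Q z := by
  simp only [Polynomial.ext_iff, h.coeff_pg, h'.coeff_pg, gm_eq_iff (h.ana _) (h'.ana _)]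
  refine ⟨fun k => ?_, fun k i => k.mono fun z hz => hz i⟩
  filter_upwards [(Finset.range (n + m + 1)).eventually_all.2 fun i _ => k i] with z hz i
  by_cases hi : i < n + m + 1
  · exact hz i (Finset.mem_range.2 hi)
  · rw [coeff_eq_zero_of_natDegree_lt ((h.deg z).trans_lt (by omega)),
      coeff_eq_zero_of_natDegree_lt ((h'.deg z).trans_lt (by omega))]

end poly

end Vale.Agent.P277Z.Oka
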