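import Vale.Agent.P277Z.Oka.Defs
import Vale.Agent.P277.Defs

/-!
# P277, block OKA: the statements
-/

open Filter Topology Polynomial
open Vale.Agent.P298.H941

noncomputable section

namespace Vale.Agent.P277Z.Oka

/-! ### Statements on a fixed space -/

section fixed

variable (E : Type) [NormedAddCommGroup E] [NormedSpace ℂ E]

/-- the relations between the vectors `f k` are generated near `x₀` by finitely many relations -/
def RelFT {ι κ : Type} [Fintype κ] (x₀ : E) (f : κ → ι → E → ℂ) : Prop :=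
  ∃ (m : ℕ) (r : Fin m → κ → E → ℂ), (∀ l k, AnalyticAt ℂ (r l k) x₀) ∧
    (∀ l i, ∀ᶠ y in 𝓝 x₀, ∑ k, r l k y * f k i y = 0) ∧
    ∀ᶠ x in 𝓝 x₀, ∀ a : κ → E → ℂ, (∀ k, AnalyticAt ℂ (a k) x) →
      (∀ i, ∀ᶠ y in 𝓝 x, ∑ k, a k y * f k i y = 0) →
      ∃ c : Fin m → E → ℂ, (∀ l, AnalyticAt ℂ (c l) x) ∧
        ∀ k, ∀ᶠ y in 𝓝 x, a k y = ∑ l, c l y * r l k y

/-- the coherence theorem for relations between vectors -/
def OkaV : Prop :=
  ∀ (ι κ : Type) [Finite ι] [Fintype κ] (x₀ : E) (f : κ → ι → E → ℂ),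
    (∀ k i, AnalyticAt ℂ (f k i) x₀) → RelFT E x₀ f

/-- the coherence theorem for relations between functions -/
def OkaS : Prop :=
  ∀ (κ : Type) [Fintype κ] (x₀ : E) (f : κ → E → ℂ),
    (∀ k, AnalyticAt ℂ (f k) x₀) → RelFT E x₀ fun k (_ : Unit) => f k

/-- the zero theorem for prime ideals -/
def NulP : Prop :=
  ∀ (ι : Type) [Fintype ι] (x : E) (h : ι → E → ℂ), Pr x h →
    ∀ f, AnalyticAt ℂ f x → Van x (Zs h) f → In x h f

/-- prime ideals are generically the full ideals of their zero sets -/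
def GenP : Prop :=
  ∀ (ι : Type) [Fintype ι] (x : E) (h : ι → E → ℂ), Pr x h →
    ∃ δ, AnalyticAt ℂ δ x ∧ ¬ In x h δ ∧ ∀ᶠ y in 𝓝 x, δ y ≠ 0 →
      ∀ f, AnalyticAt ℂ f y → Van y (Zs h) f → In y h f

/-- the zero theorem -/
def Nul : Prop :=
  ∀ (ι : Type) [Fintype ι] (x : E) (h : ι → E → ℂ), (∀ i, AnalyticAt ℂ (h i) x) →
    ∀ f, AnalyticAt ℂ f x → Van x (Zs h) f → ∃ N : ℕ, In x h fun y => f y ^ N

/-- quotients of ideals are locally finitely generated -/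
def Col : Prop :=
  ∀ (ι : Type) [Fintype ι] (x₀ : E) (h : ι → E → ℂ) (f : E → ℂ), (∀ i, AnalyticAt ℂ (h i) x₀) →
    AnalyticAt ℂ f x₀ → ∃ (m : ℕ) (r : Fin m → E → ℂ), (∀ l, AnalyticAt ℂ (r l) x₀) ∧
      (∀ l, In x₀ h fun y => r l y * f y) ∧
      ∀ᶠ x in 𝓝 x₀, ∀ a, AnalyticAt ℂ a x → In x h (fun y => a y * f y) → In x r a

/-- finite intersections of ideals are locally finitely generated -/
def Cap : Prop :=
  ∀ (α : Type) [Finite α] (ι : α → Type) [∀ a, Fintype (ι a)] (x₀ : E) (h : ∀ a, ι a → E → ℂ),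
    (∀ a i, AnalyticAt ℂ (h a i) x₀) → ∃ (m : ℕ) (r : Fin m → E → ℂ),
      (∀ l, AnalyticAt ℂ (r l) x₀) ∧ (∀ l a, In x₀ (h a) (r l)) ∧
      ∀ᶠ x in 𝓝 x₀, ∀ f, AnalyticAt ℂ f x → (∀ a, In x (h a) f) → In x r f

/-- generators of a prime ideal generate the full ideal of the zero set at all nearby points -/
def CarP : Prop :=
  ∀ (ι : Type) [Fintype ι] (x₀ : E) (h : ι → E → ℂ), Pr x₀ h →
    ∀ᶠ x in 𝓝 x₀, ∀ f, AnalyticAt ℂ f x → Van x (Zs h) f → In x h f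

/-- the ideal of an analytic set is locally finitely generated -/
def Car : Prop :=
  ∀ (ι : Type) [Fintype ι] (x₀ : E) (h : ι → E → ℂ), (∀ i, AnalyticAt ℂ (h i) x₀) →
    ∃ (m : ℕ) (g : Fin m → E → ℂ), (∀ l, AnalyticAt ℂ (g l) x₀) ∧ (∀ l, Van x₀ (Zs h) (g l)) ∧
      ∀ᶠ x in 𝓝 x₀, ∀ f, AnalyticAt ℂ f x → Van x (Zs h) f → In x g f

end fixed

/-! ### One more variable -/

section step

variable (Y : Type) [NormedAddCommGroup Y] [NormedSpace ℂ Y]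

/-- ROW WAL: division by monic polynomials at any point -/
structure Wal : Prop where
  inj : ∀ t, Function.Injective (ev Y t)
  div : ∀ (t : ℂ) (P : (O Y)[X]), P.Monic → ∀ G : O (ℂ × Y),
    ∃ (v : O (ℂ × Y)) (R : (O Y)[X]), G = v * ev Y t P + ev Y t R ∧ R.degree < P.degree
  rel : ∀ (t : ℂ) (κ : Type) [Fintype κ] (f : Option κ → (O Y)[X]) (n : ℕ), (f none).Monic →
    (∀ k, (f k).natDegree ≤ n) → ∀ a : Option κ → O (ℂ × Y), ∑ k, a k * ev Y t (f k) = 0 →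
    a ∈ Submodule.span (O (ℂ × Y)) {b | ∃ ρ : Option κ → (O Y)[X], (∀ k, (ρ k).natDegree ≤ n) ∧
      ∑ k, ρ k * f k = 0 ∧ b = fun k => ev Y t (ρ k)}

/-- ROW OKP: relations between polynomial families, one of which is monic -/
def OkP : Prop :=
  ∀ (κ : Type) [Fintype κ] (P : Option κ → Y → ℂ[X]) (n : ℕ), (∀ k, PF 0 n (P k)) →
    (∀ z, (P none z).Monic ∧ (P none z).natDegree = n) →
    RelFT (ℂ × Y) 0 fun k (_ : Unit) => pf (P k)

/-- ROW OKR: relations between functions, one of which is regular -/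
def OkR : Prop :=
  ∀ (κ : Type) [Fintype κ] (f : κ → ℂ × Y → ℂ) (k₀ : κ), (∀ k, AnalyticAt ℂ (f k) 0) →
    Reg (f k₀) → RelFT (ℂ × Y) 0 fun k (_ : Unit) => f k

/-- the structure of a prime ideal which contains a regular element -/
structure Tri {ι : Type} [Fintype ι] (h : ι → ℂ × Y → ℂ) {m : ℕ} (h' : Fin m → Y → ℂ) (d : ℕ)
    (g : Y → ℂ[X]) : Prop where
  pr : Pr 0 h'
  up : ∀ j, In 0 h fun z => h' j z.2
  down : ∀ r, AnalyticAt ℂ r 0 → In 0 h (fun z => r z.2) → In 0 h' r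
  pfg : PF 0 d g
  pos : 0 < d
  mem : In 0 h (pf g)
  lead : ¬ In 0 h' fun y => (g y).coeff d
  der : ¬ In 0 h (pf fun y => derivative (g y))
  gen : ∃ N : ℕ, ∀ i, In 0 (fun o : Option (Fin m) => o.elim (pf g) fun j z => h' j z.2)
    fun z => (g z.2).coeff d ^ N * h i z
  small : ∀ ε > 0, ∀ᶠ y in 𝓝 (0 : Y), y ∈ Zs h' → (g y).coeff d ≠ 0 →
    ∀ t, (g y).eval t = 0 → ‖t‖ < ε
  norm : ∀ f, AnalyticAt ℂ f 0 → ¬ In 0 h f → ∃ r, AnalyticAt ℂ r 0 ∧ ¬ In 0 h' r ∧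
    In 0 (fun o : Option ι => o.elim f h) fun z => r z.2

/-- ROW PST -/
def Pst : Prop :=
  ∀ (ι : Type) [Fintype ι] (h : ι → ℂ × Y → ℂ), Pr 0 h → ∀ i₀, Reg (h i₀) →
    ∃ (m : ℕ) (h' : Fin m → Y → ℂ) (d : ℕ) (g : Y → ℂ[X]), Tri Y h h' d g

end step

/-- ROW ALG: a prime ideal of a polynomial ring which contains a monic polynomial -/
def Alg : Prop :=
  ∀ (A : Type) [CommRing A] [Algebra ℂ A] (q : Ideal A[X]), q.IsPrime → ∀ P ∈ q, P.Monic →
    ∃ g ∈ q, 0 < g.natDegree ∧ C g.leadingCoeff ∉ q ∧ derivative g ∉ q ∧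
      (∀ f ∈ q, ∃ (N : ℕ) (s : A[X]), ∀ i, C ((C g.leadingCoeff ^ N * f - s * g).coeff i) ∈ q) ∧
      ∀ f ∉ q, ∃ (r : A) (s : A[X]), C r ∉ q ∧ C r - s * f ∈ q

/-- a property of all finite dimensional spaces -/
def All (P : ∀ (E : Type) [NormedAddCommGroup E] [NormedSpace ℂ E], Prop) : Prop :=
  ∀ (E : Type) [NormedAddCommGroup E] [NormedSpace ℂ E] [FiniteDimensional ℂ E], P E

/-- ROW NOE -/
def Noe : Prop := All fun E _ _ => IsNoetherianRing (O E)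

/-! ### Complex spaces -/

open Vale.Agent.P277 Vale.Agent.P272.K in
/-- ROW CSP: an analytic subset `A` of a complex space has near every point, in every model, a
finite system of functions which generates at all nearby points the ideal of the functions vanishing
on (the image of) `A` -/
def CarX : Prop :=
  ∀ (X : CSp) (W A : Set X.pt), IsAn X W A → ∀ {N k : ℕ} (V : Set X.pt) (Ω : Set (Cm N))
    (h : Fin k → Cm N → ℂ) (φ : X.pt → Cm N), IsModel X.Hol V Ω h φ → ∀ x ∈ V ∩ W,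
    ∃ (m : ℕ) (g : Fin m → Cm N → ℂ), (∀ l, AnalyticAt ℂ (g l) (φ x)) ∧
      (∀ᶠ z in 𝓝 (φ x), z ∈ φ '' (V ∩ A) ↔ z ∈ Zs g) ∧
      ∀ᶠ z in 𝓝 (φ x), ∀ f, AnalyticAt ℂ f z → Van z (φ '' (V ∩ A)) f → In z g f

end Vale.Agent.P277Z.Oka
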