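import Vale.Agent.P277Z.Oka.Sk

/-!
# P277, block OKA: division by monic polynomials
-/

open Filter Topology Polynomial
open Vale.Agent.P298.H941

set_option linter.unusedSectionVars false

noncomputable section

namespace Vale.Agent.P277Z.Oka

variable {Y : Type} [NormedAddCommGroup Y] [NormedSpace ℂ Y]

namespace Wa

theorem one_var {U : Set ℂ} (hU : IsOpen U) {v : ℂ → ℂ} (hv : ContinuousOn v U) (k : ℕ) :
    ∀ p r : ℂ[X], p.Monic → p.natDegree = k → r.degree < k → (∀ z, p.eval z = 0 → z ∈ U) →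
      (∀ z ∈ U, r.eval z = v z * p.eval z) → r = 0 := by
  induction k with
  | zero => exact fun p r _ _ h _ _ => degree_eq_bot.1 (Nat.WithBot.lt_zero_iff.1 h)
  | succ k ih =>
    intro p r hp hk hr h1 h2
    obtain ⟨c, hc⟩ := Complex.exists_root (f := p) (natDegree_pos_iff_degree_pos.1 (by omega))
    have hcU := h1 c hc
    have hrc : r.IsRoot c := by rw [IsRoot, h2 c hcU, hc.eq_zero, mul_zero]
    obtain ⟨p, rfl⟩ := dvd_iff_isRoot.2 hc
    obtain ⟨r, rfl⟩ := dvd_iff_isRoot.2 hrc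
    have hp' : p.Monic := (monic_X_sub_C c).of_mul_monic_left hp
    rw [ih p r hp' ?_ ?_ (fun z hz => h1 z (by rw [eval_mul, hz, mul_zero])) fun z hz => ?_,
      mul_zero]
    · rw [(monic_X_sub_C c).natDegree_mul hp', natDegree_X_sub_C] at hk
      omega
    · rw [degree_mul, degree_X_sub_C, add_comm, Nat.cast_succ] at hr
      exact (WithBot.add_lt_add_iff_right WithBot.one_ne_bot).1 hr
    · have h3 : ∀ w ∈ U, w ≠ c → r.eval w = v w * p.eval w := fun w hw e =>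
        mul_left_cancel₀ (sub_ne_zero.2 e) (by simpa [mul_left_comm] using h2 w hw)
      refine tendsto_nhds_unique_of_frequently_eq (l := 𝓝 z) r.continuous.continuousAt.tendsto
        ((hv.continuousAt (hU.mem_nhds hz)).mul p.continuous.continuousAt).tendsto ?_
      have h4 : ∃ᶠ w in 𝓝 z, w ∈ ({c}ᶜ : Set ℂ) := mem_closure_iff_frequently.1
        (dense_compl_singleton c z)
      exact (h4.and_eventually (hU.mem_nhds hz)).mono fun w hw => h3 w hw.2 hw.1

/-- distinguished polynomials -/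
def Dist (P : (O Y)[X]) : Prop := P.Monic ∧ P.map (ev0 Y : O Y →+* ℂ) = X ^ P.natDegree

theorem map_pg {n : ℕ} {P : Y → ℂ[X]} (h : PF 0 n P) :
    (pg 0 n P).map (ev0 Y : O Y →+* ℂ) = P 0 :=
  Polynomial.ext fun i => by rw [coeff_map, h.coeff_pg]; exact ev0_gm (h.ana i)

theorem monic_pg {n : ℕ} {P : Y → ℂ[X]} {y : Y} (h : PF y n P)
    (hm : ∀ z, (P z).Monic ∧ (P z).natDegree = n) :
    (pg y n P).Monic ∧ (pg y n P).natDegree = n := by
  have h1 : (pg y n P).coeff n = 1 := by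
    rw [h.coeff_pg, ← gm_one y]
    exact congrArg _ (funext fun z => (hm z).2 ▸ (hm z).1.coeff_natDegree)
  exact ⟨monic_of_natDegree_le_of_coeff_eq_one n (natDegree_pg y n P) h1,
    natDegree_eq_of_le_of_coeff_ne_zero (natDegree_pg y n P) (h1 ▸ one_ne_zero)⟩

theorem exists_monic (y : Y) {P : (O Y)[X]} (hP : P.Monic) : ∃ F : Y → ℂ[X], PF y P.natDegree F ∧
    (∀ z, (F z).Monic ∧ (F z).natDegree = P.natDegree) ∧ pg y P.natDegree F = P := by
  classical
  obtain ⟨F, hF, e⟩ := pg_surj y (le_refl P.natDegree)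
  have h1 : ∀ᶠ z in 𝓝 y, (F z).coeff P.natDegree = 1 := by
    rw [← gm_eq_iff (hF.ana _) analyticAt_const, ← hF.coeff_pg, e, gm_one]
    exact hP.coeff_natDegree
  let G : Y → ℂ[X] := fun z => if (F z).coeff P.natDegree = 1 then F z else X ^ P.natDegree
  have h2 : ∀ᶠ z in 𝓝 y, F z = G z := h1.mono fun z hz => (if_pos hz).symm
  have h3 : ∀ z, (G z).Monic ∧ (G z).natDegree = P.natDegree := fun z => by
    by_cases hz : (F z).coeff P.natDegree = 1
    · rw [show G z = F z from if_pos hz]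
      exact ⟨monic_of_natDegree_le_of_coeff_eq_one _ (hF.deg z) hz,
        natDegree_eq_of_le_of_coeff_ne_zero (hF.deg z) (hz ▸ one_ne_zero)⟩
    · rw [show G z = _ from if_neg hz]
      exact ⟨monic_X_pow _, natDegree_X_pow _⟩
  have hG : PF y P.natDegree G :=
    ⟨fun z => (h3 z).2.le, fun i => (hF.ana i).congr (h2.mono fun z hz => by simp only [hz])⟩
  exact ⟨G, hG, h3, ((pg_eq_iff hF hG).2 h2).symm.trans e⟩

theorem pf_zero (y : Y) : PF y 0 fun _ => (0 : ℂ[X]) :=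
  ⟨fun _ => le_rfl, fun _ => analyticAt_const⟩

theorem uniq {P R : (O Y)[X]} (hP : Dist P) (hR : R.degree < P.degree) {v : O (ℂ × Y)}
    (h : ev Y 0 R = v * ev Y 0 P) : R = 0 := by
  obtain ⟨F, hF, hm, e⟩ := exists_monic 0 hP.1
  have hF0 : F 0 = X ^ P.natDegree := by rw [← map_pg hF, e, hP.2]
  by_cases hR0 : R = 0
  · exact hR0
  obtain ⟨G, hG, e'⟩ := pg_surj (0 : Y) (le_refl R.natDegree)
  obtain ⟨v, hv, rfl⟩ := gm_surj ((0 : ℂ), (0 : Y)) v
  rw [← e, ← e', hF.ev_pg, hG.ev_pg, ← gm_mul hv (hF.ana_pf 0),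
    gm_eq_iff (hG.ana_pf 0) (hv.fun_mul (hF.ana_pf 0))] at h
  obtain ⟨ε, hε, hb⟩ := Metric.eventually_nhds_iff_ball.1 (h.and hv.eventually_continuousAt)
  have h0 : pg (0 : Y) 0 (fun _ => 0) = 0 := by simp [pg, gm_zero]
  rw [← e', ← h0, pg_eq_iff hG (pf_zero 0)]
  filter_upwards [roots_small hm (fun i => (hF.ana i).continuousAt) hF0 hε,
    Metric.ball_mem_nhds (0 : Y) hε] with y h1 h2
  have h3 : ∀ z ∈ Metric.ball (0 : ℂ) ε, (z, y) ∈ Metric.ball ((0 : ℂ), (0 : Y)) ε :=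
    fun z hz => ball_prod_same (0 : ℂ) (0 : Y) ε ▸ Set.mk_mem_prod hz h2
  refine one_var Metric.isOpen_ball (v := fun z => v (z, y)) (fun z hz => ((hb _ (h3 z hz)).2.comp
    (f := fun z => (z, y)) (by fun_prop)).continuousWithinAt) _ _ _ (hm y).1 (hm y).2
    (degree_le_natDegree.trans_lt ?_) (fun z hz => mem_ball_zero_iff.2 (h1 z hz))
    fun z hz => (hb _ (h3 z hz)).1
  exact_mod_cast (hG.deg y).trans_lt (natDegree_lt_natDegree hR0 hR)

theorem inj0 : Function.Injective (ev Y 0) := (injective_iff_map_eq_zero _).2 fun R h =>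
  uniq (P := X ^ (R.natDegree + 1)) (v := 0) ⟨monic_X_pow _, by simp⟩
    (degree_le_natDegree.trans_lt (by rw [degree_X_pow]; exact_mod_cast Nat.lt_succ_self _))
    (by rw [h, zero_mul])

theorem reg {F : Y → ℂ[X]} (h : F 0 ≠ 0) : Reg (pf F) := fun k =>
  h (eq_zero_of_infinite_isRoot _ (infinite_of_mem_nhds (0 : ℂ) k))

theorem div0 {P : (O Y)[X]} (hP : P.Monic) (G : O (ℂ × Y)) :
    ∃ (v : O (ℂ × Y)) (R : (O Y)[X]), G = v * ev Y 0 P + ev Y 0 R ∧ R.degree < P.degree := by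
  obtain ⟨F, hF, hm, e⟩ := exists_monic 0 hP
  obtain ⟨b, u, hu, hu0, hb⟩ := (reg (hm 0).1.ne_zero).form (hF.ana_pf 0)
  obtain ⟨v, r, h⟩ := germ_division (ev Y 0 P) (b := b) (u := mk u hu)
    ((P298.H941.isUnit_iff _).2 hu0) (by
      rw [← e, hF.ev_pg, show ((0 : ℂ), (0 : Y)) = 0 from rfl, gm_zero_eq (hF.ana_pf 0)]
      exact mk_congr _ ((analyticAt_id.fun_pow b).fun_mul hu) hb) G
  have h1 : ∑ i, sndH Y (r i) * fstG Y ^ (i : ℕ) = ev Y 0 (∑ i, C (r i) * X ^ (i : ℕ)) := by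
    simp [ev_C, ev_X]
  refine ⟨v + ev Y 0 ((∑ i, C (r i) * X ^ (i : ℕ)) /ₘ P), (∑ i, C (r i) * X ^ (i : ℕ)) %ₘ P, ?_,
    degree_modByMonic_lt _ hP⟩
  rw [h, h1, add_mul, add_assoc, ← map_mul, ← map_add, mul_comm _ P, add_comm (P * _),
    modByMonic_add_div]

theorem prep {f : ℂ × Y → ℂ} (hf : AnalyticAt ℂ f 0) (h : Reg f) :
    ∃ (P : (O Y)[X]) (v : O (ℂ × Y)), Dist P ∧ IsUnit v ∧ gm 0 f * v = ev Y 0 P := by
  obtain ⟨b, u, hu, hu0, hb⟩ := h.form hf
  obtain ⟨P, v, h1, h2, h3, h4, h5, h6⟩ := P267.H823.weierstrass (p0 := (0 : Y)) hf hu hu0 hb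
  have hP : PF 0 b P := ⟨fun z => (h1 z).2.le, h2⟩
  refine ⟨pg 0 b P, gm 0 v, ⟨(monic_pg hP h1).1, ?_⟩, (isUnit_gm h4).2 h5, ?_⟩
  · rw [map_pg hP, (monic_pg hP h1).2, h3]
  · rw [hP.ev_pg, ← gm_mul hf h4]
    exact gm_congr (hf.fun_mul h4) h6

theorem dvd_of {P R : (O Y)[X]} (hP : Dist P) {v : O (ℂ × Y)} (h : ev Y 0 R = v * ev Y 0 P) :
    R = P * (R /ₘ P) ∧ ev Y 0 (R /ₘ P) = v := by
  have h1 := modByMonic_add_div R P
  have h2 : R %ₘ P = 0 := uniq hP (degree_modByMonic_lt _ hP.1) (v := v - ev Y 0 (R /ₘ P)) (by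
    rw [eq_sub_of_add_eq h1, map_sub, map_mul, h]; ring)
  rw [h2, zero_add] at h1
  refine ⟨h1.symm, mul_left_cancel₀ ((map_ne_zero_iff _ inj0).2 hP.1.ne_zero) ?_⟩
  rw [← map_mul, h1, h, mul_comm]

theorem fact {P : (O Y)[X]} (hP : P.Monic) :
    ∃ P' S : (O Y)[X], Dist P' ∧ IsUnit (ev Y 0 S) ∧ P = P' * S := by
  obtain ⟨F, hF, hm, e⟩ := exists_monic 0 hP
  obtain ⟨P', v, h1, ⟨v, rfl⟩, h2⟩ := prep (hF.ana_pf 0) (reg (hm 0).1.ne_zero)
  have h3 : ev Y 0 P = ↑v⁻¹ * ev Y 0 P' := by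
    rw [← h2, ← e, hF.ev_pg, mul_comm _ (v : O (ℂ × Y)), Units.inv_mul_cancel_left]; rfl
  exact ⟨P', _, h1, (dvd_of h1 h3).2 ▸ Units.isUnit _, (dvd_of h1 h3).1⟩

theorem rel0 {κ : Type} [Fintype κ] (f : Option κ → (O Y)[X]) (n : ℕ) (hm : (f none).Monic)
    (hn : ∀ k, (f k).natDegree ≤ n) (a : Option κ → O (ℂ × Y))
    (ha : ∑ k, a k * ev Y 0 (f k) = 0) :
    a ∈ Submodule.span (O (ℂ × Y)) {b | ∃ ρ : Option κ → (O Y)[X], (∀ k, (ρ k).natDegree ≤ n) ∧
      ∑ k, ρ k * f k = 0 ∧ b = fun k => ev Y 0 (ρ k)} := by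
  classical
  obtain ⟨P, S, hP, ⟨u, hu⟩, e⟩ := fact hm
  choose g r hg hr using fun k : κ => div0 hP.1 (a (some k))
  have hS : S.Monic := hP.1.of_mul_monic_left (e ▸ hm)
  have hd : P.natDegree + S.natDegree ≤ n := hP.1.natDegree_mul hS ▸ e ▸ hn none
  have hr' : ∀ k, (r k).natDegree ≤ P.natDegree := fun k => natDegree_le_natDegree (hr k).le
  set R : (O Y)[X] := -∑ k, r k * f (some k) with hR
  have hRd : R.natDegree ≤ P.natDegree + n := by
    rw [hR, natDegree_neg]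
    exact natDegree_sum_le_of_forall_le _ _ fun k _ =>
      natDegree_mul_le.trans (add_le_add (hr' k) (hn _))
  have h1 : ev Y 0 R = (u * a none + ∑ k, g k * ev Y 0 (f (some k))) * ev Y 0 P := by
    rw [Fintype.sum_option, e, map_mul, ← hu] at ha
    simp only [hg, add_mul, Finset.sum_add_distrib] at ha
    simp only [hR, map_neg, map_sum, map_mul, add_mul, Finset.sum_mul]
    have : ∑ k, g k * ev Y 0 (f (some k)) * ev Y 0 P =
        ∑ k, g k * ev Y 0 P * ev Y 0 (f (some k)) := Finset.sum_congr rfl fun k _ => by ring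
    linear_combination -ha - this
  obtain ⟨h2, h3⟩ := dvd_of hP h1
  let T : κ → Option κ → (O Y)[X] := fun j k =>
    k.elim (-f (some j)) fun k => if k = j then f none else 0
  let ρ : Option κ → (O Y)[X] := fun k => k.elim (R /ₘ P) fun k => S * r k
  have h4 : a = (↑u⁻¹ : O (ℂ × Y)) • ((fun k => ev Y 0 (ρ k)) +
      ∑ j, g j • fun k => ev Y 0 (T j k)) := by
    rw [← Units.smul_def, eq_inv_smul_iff]
    funext k
    cases k with
    | none => simp [T, ρ, h3, Units.smul_def, Finset.sum_apply]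
    | some k =>
      simp only [T, ρ, Units.smul_def, Finset.sum_apply, Pi.add_apply, Pi.smul_apply, Option.elim,
        smul_eq_mul, apply_ite (ev Y 0), map_zero, mul_ite, mul_zero, Finset.sum_ite_eq,
        Finset.mem_univ, if_true, hg k, e, map_mul, ← hu]
      ring
  rw [h4]
  refine Submodule.smul_mem _ _ (add_mem (Submodule.subset_span ⟨ρ, fun k => ?_, ?_, rfl⟩)
    (sum_mem fun j _ => Submodule.smul_mem _ _ (Submodule.subset_span ⟨T j, fun k => ?_, ?_, rfl⟩)))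
  · cases k with
    | none => exact (natDegree_divByMonic R hP.1).trans_le (by omega)
    | some k => exact natDegree_mul_le.trans (by have := hr' k; omega)
  · rw [Fintype.sum_option, e]
    simp only [ρ, Option.elim, mul_assoc, ← Finset.mul_sum]
    linear_combination (-S) * h2 + S * hR
  · cases k with
    | none => exact (natDegree_neg _).trans_le (hn _)
    | some k =>
      simp only [T, Option.elim]
      split_ifs
      exacts [hn _, by simp]
  · simp [T, Fintype.sum_option, mul_comm]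

theorem ev_eq (t : ℂ) (P : (O Y)[X]) : ev Y t P = ev Y 0 (taylor (algebraMap ℂ _ t) P) := by
  have h : ev Y t = (ev Y 0).comp (taylorAlgHom (algebraMap ℂ (O Y) t) : _ →+* _) := by
    refine Polynomial.ringHom_ext (fun a => ?_) ?_
    · simp [ev_C]
    · simp [ev_C, ev_X]
  rw [h]
  rfl

theorem monic_t {P : (O Y)[X]} (h : P.Monic) (c : O Y) : (taylor c P).Monic :=
  (leadingCoeff_taylor c P).trans h

end Wa

open Wa

theorem wal (Y : Type) [NormedAddCommGroup Y] [NormedSpace ℂ Y] : Wal Y where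
  inj t := fun a b h => taylor_injective _ (inj0 (by rw [← ev_eq, ← ev_eq, h]))
  div t P hP G := by
    obtain ⟨v, R, h1, h2⟩ := div0 (monic_t hP (algebraMap ℂ (O Y) t)) G
    refine ⟨v, taylor (-algebraMap ℂ _ t) R, ?_, by simpa using h2⟩
    rw [ev_eq t, ev_eq t, taylor_taylor, add_neg_cancel, taylor_zero]
    exact h1
  rel t κ _ f n hm hn a ha := by
    refine Submodule.span_mono ?_ (rel0 (fun k => taylor (algebraMap ℂ (O Y) t) (f k)) n
      (monic_t hm _) (by simpa using hn) a (by simpa only [ev_eq t] using ha))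
    rintro _ ⟨ρ, h1, h2, rfl⟩
    refine ⟨fun k => taylor (-algebraMap ℂ _ t) (ρ k), by simpa using h1,
      taylor_injective (algebraMap ℂ (O Y) t) ?_, funext fun k => ?_⟩
    · simpa [taylor_mul, taylor_taylor] using h2
    · rw [ev_eq t, taylor_taylor, add_neg_cancel, taylor_zero]

end Vale.Agent.P277Z.Oka
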